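import Vale.Agent.P099.R2.H717.Front
import Mathlib.MeasureTheory.Measure.SeparableMeasure

/-! # P099: radii of density one around almost every single centre. -/

set_option linter.all false

namespace Vale.Agent.P099.H717

open MeasureTheory Set Filter Topology Vale.Agent.P099 Vale.Agent.P099T Vale.Agent.P099.H366

lemma ii_of_bdd {f : ℝ → ℝ} (hf : Measurable f) {C : ℝ} (hb : ∀ t, |f t| ≤ C) (a b : ℝ) :
    IntervalIntegrable f volume a b :=
  ⟨Integrable.of_bound hf.aestronglyMeasurable C (ae_of_all _ hb),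
    Integrable.of_bound hf.aestronglyMeasurable C (ae_of_all _ hb)⟩

/-- Koopman and von Neumann, continuous time, measurable functions -/
theorem kvn {c : ℝ → ℝ} (hc : Measurable c) (h0 : ∀ t, 0 ≤ c t) (h1 : ∀ t, c t ≤ 1)
    (h : Tendsto (fun R : ℝ => R⁻¹ * ∫ t in (0 : ℝ)..R, c t) atTop (𝓝 0)) :
    ∃ J : Set ℝ, MeasurableSet J ∧
      Tendsto (fun R : ℝ => volume.real (J ∩ Ioc 0 R) / R) atTop (𝓝 1) ∧
      Tendsto c (atTop ⊓ 𝓟 J) (𝓝 0) := by
  set a : ℝ → ℝ := fun R => R⁻¹ * ∫ t in (0 : ℝ)..R, c t with ha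
  have hii : ∀ a b : ℝ, IntervalIntegrable c volume a b := fun a b =>
    ii_of_bdd hc (C := 1) (fun t => by rw [abs_of_nonneg (h0 t)]; exact h1 t) a b
  have ha1 : ∀ R, 0 < R → a R ≤ 1 := by
    intro R hR
    rw [ha]
    simp only
    rw [inv_mul_le_iff₀ hR, mul_one]
    calc ∫ t in (0 : ℝ)..R, c t ≤ ∫ t in (0 : ℝ)..R, (1 : ℝ) :=
          intervalIntegral.integral_mono_on hR.le (hii _ _)
            (continuous_const.intervalIntegrable _ _) fun t _ => h1 t
      _ = R := by simp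
  -- an antitone positive majorant
  set s : ℝ → ℝ := fun t => sSup (a '' Ici (max t 1)) + Real.exp (-t) with hs
  have hbdd : ∀ t, BddAbove (a '' Ici (max t 1)) := by
    intro t
    refine ⟨1, ?_⟩
    rintro _ ⟨R, hR, rfl⟩
    exact ha1 R (lt_of_lt_of_le one_pos ((le_max_right t 1).trans hR))
  have hne : ∀ t, (a '' Ici (max t 1)).Nonempty := fun t => ⟨_, _, mem_Ici.2 le_rfl, rfl⟩
  have ha0 : ∀ R, 0 < R → 0 ≤ a R := fun R hR =>
    mul_nonneg (inv_nonneg.2 hR.le) (intervalIntegral.integral_nonneg hR.le fun t _ => h0 t)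
  have hsup0 : ∀ t, 0 ≤ sSup (a '' Ici (max t 1)) := by
    intro t
    obtain ⟨y, hy⟩ := hne t
    refine le_trans ?_ (le_csSup (hbdd t) hy)
    obtain ⟨R, hR, rfl⟩ := hy
    exact ha0 R (lt_of_lt_of_le one_pos ((le_max_right t 1).trans hR))
  have hspos : ∀ t, 0 < s t := fun t => add_pos_of_nonneg_of_pos (hsup0 t) (Real.exp_pos _)
  have hanti : Antitone s := by
    intro t t' htt
    refine add_le_add ?_ (Real.exp_le_exp.2 (by linarith))
    refine csSup_le_csSup (hbdd t) (hne t') (image_mono ?_)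
    exact Ici_subset_Ici.2 (max_le_max htt le_rfl)
  have hsa : ∀ R, 1 ≤ R → a R ≤ s R := by
    intro R hR
    have h2 : a R ≤ sSup (a '' Ici (max R 1)) :=
      le_csSup (hbdd R) ⟨R, mem_Ici.2 (max_le le_rfl hR), rfl⟩
    have := (Real.exp_pos (-R)).le
    simp only [hs]
    linarith
  have hs0 : Tendsto s atTop (𝓝 0) := by
    have e1 : Tendsto (fun t : ℝ => Real.exp (-t)) atTop (𝓝 0) := Real.tendsto_exp_neg_atTop_nhds_zero
    have e2 : Tendsto (fun t : ℝ => sSup (a '' Ici (max t 1))) atTop (𝓝 0) := by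
      rw [Metric.tendsto_atTop]
      intro ε hε
      obtain ⟨R0, hR0⟩ := eventually_atTop.1 ((tendsto_order.1 h).2 (ε / 2) (by linarith))
      refine ⟨R0, fun t ht => ?_⟩
      rw [Real.dist_eq, sub_zero, abs_of_nonneg (hsup0 t)]
      refine lt_of_le_of_lt (csSup_le (hne t) ?_) (half_lt_self hε)
      rintro _ ⟨R, hR, rfl⟩
      exact (hR0 R (ht.le.trans ((le_max_left t 1).trans hR))).le
    simpa using e2.add e1
  have hsm : Measurable s := hanti.measurable
  have hsq : Tendsto (fun t => Real.sqrt (s t)) atTop (𝓝 0) := by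
    have := (Real.continuous_sqrt.tendsto 0).comp hs0
    rwa [Real.sqrt_zero] at this
  set J : Set ℝ := {t | c t ≤ Real.sqrt (s t)} with hJ
  have hJm : MeasurableSet J := measurableSet_le hc hsm.sqrt
  refine ⟨J, hJm, ?_, ?_⟩
  · -- density
    have key : ∀ R, 1 ≤ R → volume.real (Ioc 0 R \ J) ≤ R * Real.sqrt (s R) := by
      intro R hR
      have hR0 : 0 < R := lt_of_lt_of_le one_pos hR
      have hq : 0 < Real.sqrt (s R) := Real.sqrt_pos.2 (hspos R)
      have hfin : volume (Ioc 0 R \ J) ≠ ⊤ :=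
        ne_top_of_le_ne_top (by rw [Real.volume_Ioc]; exact ENNReal.ofReal_ne_top)
          (measure_mono diff_subset)
      have e1 : ∫ t in Ioc 0 R \ J, Real.sqrt (s R) ≤ ∫ t in Ioc 0 R \ J, c t := by
        refine setIntegral_mono_on (integrableOn_const hfin) ?_
          (measurableSet_Ioc.diff hJm) fun t ht => ?_
        · exact ((hii 0 R).1).mono_set diff_subset
        · have h2 : ¬ c t ≤ Real.sqrt (s t) := ht.2
          have h3 : Real.sqrt (s R) ≤ Real.sqrt (s t) := Real.sqrt_le_sqrt (hanti ht.1.2)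
          linarith [not_le.1 h2]
      have e2 : ∫ t in Ioc 0 R \ J, c t ≤ ∫ t in Ioc 0 R, c t :=
        setIntegral_mono_set (hii 0 R).1 (ae_of_all _ fun t => h0 t)
          (ae_of_all _ fun t ht => ht.1)
      have e3 : ∫ t in Ioc 0 R, c t = R * a R := by
        rw [← intervalIntegral.integral_of_le hR0.le]
        simp only [ha]
        rw [← mul_assoc, mul_inv_cancel₀ hR0.ne', one_mul]
      have e4 : ∫ t in Ioc 0 R \ J, Real.sqrt (s R) = volume.real (Ioc 0 R \ J) * Real.sqrt (s R) := by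
        rw [setIntegral_const, smul_eq_mul]
      have e5 : volume.real (Ioc 0 R \ J) * Real.sqrt (s R) ≤
          (R * Real.sqrt (s R)) * Real.sqrt (s R) := by
        rw [← e4, mul_assoc, Real.mul_self_sqrt (hspos R).le]
        refine (e1.trans e2).trans ?_
        rw [e3]
        exact mul_le_mul_of_nonneg_left (hsa R hR) hR0.le
      exact le_of_mul_le_mul_right e5 hq
    have h5 : Tendsto (fun R : ℝ => 1 - Real.sqrt (s R)) atTop (𝓝 1) := by
      simpa using (tendsto_const_nhds (x := (1 : ℝ))).sub hsq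
    refine tendsto_of_tendsto_of_tendsto_of_le_of_le' h5 tendsto_const_nhds ?_ ?_
    · filter_upwards [eventually_ge_atTop 1] with R hR
      have hR0 : 0 < R := lt_of_lt_of_le one_pos hR
      have h6 : volume.real (J ∩ Ioc 0 R) + volume.real (Ioc 0 R \ J) = R := by
        rw [inter_comm, measureReal_inter_add_diff hJm (by
          rw [Real.volume_Ioc]; exact ENNReal.ofReal_ne_top), Measure.real, Real.volume_Ioc,
          sub_zero, ENNReal.toReal_ofReal hR0.le]
      rw [le_div_iff₀ hR0]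
      have := key R hR
      nlinarith
    · filter_upwards [eventually_ge_atTop 1] with R hR
      have hR0 : 0 < R := lt_of_lt_of_le one_pos hR
      rw [div_le_one hR0]
      calc volume.real (J ∩ Ioc 0 R) ≤ volume.real (Ioc 0 R) :=
            measureReal_mono inter_subset_right (by rw [Real.volume_Ioc]; exact ENNReal.ofReal_ne_top)
        _ = R := by
            rw [Measure.real, Real.volume_Ioc, sub_zero, ENNReal.toReal_ofReal hR0.le]
  · refine tendsto_of_tendsto_of_tendsto_of_le_of_le' tendsto_const_nhds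
      (hsq.mono_left inf_le_left) (Eventually.of_forall h0) ?_
    exact (mem_inf_of_right (mem_principal_self J))

/-- one set of times of density one for countably many measurable functions -/
theorem exists_density_one {F : ℕ → ℝ → ℝ} (hF : ∀ i, Measurable (F i))
    (hb : ∀ i t, |F i t| ≤ 1)
    (h : ∀ i, Tendsto (fun R : ℝ => R⁻¹ * ∫ t in (0 : ℝ)..R, |F i t|) atTop (𝓝 0)) :
    ∃ J : Set ℝ, MeasurableSet J ∧
      Tendsto (fun R : ℝ => volume.real (J ∩ Ioc 0 R) / R) atTop (𝓝 1) ∧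
      ∀ i, Tendsto (F i) (atTop ⊓ 𝓟 J) (𝓝 0) := by
  set w : ℕ → ℝ := fun i => (1 / 2) ^ i * (1 / 2) with hw
  have hw0 : ∀ i, 0 < w i := fun i => by positivity
  have hws : HasSum w 1 := by
    have := hasSum_geometric_two.mul_right (1 / 2 : ℝ)
    simpa [hw] using this
  have hsum : ∀ t, Summable fun i => w i * |F i t| := fun t =>
    Summable.of_nonneg_of_le (fun i => mul_nonneg (hw0 i).le (abs_nonneg _))
      (fun i => mul_le_of_le_one_right (hw0 i).le (hb i t)) hws.summable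
  set c : ℝ → ℝ := fun t => ∑' i, w i * |F i t| with hcd
  have hcm : Measurable c := by
    refine measurable_of_tendsto_metrizable
      (f := fun (n : ℕ) (t : ℝ) => ∑ i ∈ Finset.range n, w i * |F i t|) (fun n => ?_) ?_
    · exact Finset.measurable_fun_sum _ fun i _ => ((hF i).norm).const_mul _
    · rw [tendsto_pi_nhds]
      intro t
      exact (hsum t).hasSum.tendsto_sum_nat
  have hc0 : ∀ t, 0 ≤ c t := fun t => tsum_nonneg fun i => mul_nonneg (hw0 i).le (abs_nonneg _)
  have hc1 : ∀ t, c t ≤ 1 := fun t => by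
    rw [← hws.tsum_eq]
    exact (hsum t).tsum_le_tsum (fun i => mul_le_of_le_one_right (hw0 i).le (hb i t)) hws.summable
  have hci : ∀ i R, IntervalIntegrable (fun t => |F i t|) volume 0 R := fun i R =>
    ii_of_bdd (hF i).norm (C := 1) (fun t => by rw [Real.norm_eq_abs, abs_abs]; exact hb i t) _ _
  have hlim : Tendsto (fun R : ℝ => R⁻¹ * ∫ t in (0 : ℝ)..R, c t) atTop (𝓝 0) := by
    rw [Metric.tendsto_atTop]
    intro ε hε
    obtain ⟨k, hk⟩ := ((tendsto_order.1 (tendsto_sum_nat_add w)).2 (ε / 2) (by linarith)).exists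
    have h2 : Tendsto (fun R : ℝ => ∑ i ∈ Finset.range k, (R⁻¹ * ∫ t in (0 : ℝ)..R, |F i t|)) atTop
        (𝓝 0) := by
      have := tendsto_finset_sum (Finset.range k) fun i _ => h i
      simpa using this
    obtain ⟨R0, hR0⟩ := eventually_atTop.1 ((tendsto_order.1 h2).2 (ε / 2) (by linarith))
    refine ⟨max R0 1, fun R hR => ?_⟩
    have hRpos : 0 < R := lt_of_lt_of_le one_pos ((le_max_right _ _).trans hR)
    have h3 := hR0 R ((le_max_left _ _).trans hR)
    have h4 : 0 ≤ ∫ t in (0 : ℝ)..R, c t :=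
      intervalIntegral.integral_nonneg hRpos.le fun t _ => hc0 t
    rw [Real.dist_eq, sub_zero, abs_of_nonneg (mul_nonneg (inv_nonneg.2 hRpos.le) h4)]
    have h5 : ∀ t, c t ≤ ∑ i ∈ Finset.range k, |F i t| + ∑' i, w (i + k) := by
      intro t
      rw [hcd]
      simp only
      rw [← (hsum t).sum_add_tsum_nat_add k]
      refine add_le_add (Finset.sum_le_sum fun i _ => ?_) ?_
      · have hwi : w i ≤ 1 := by
          have h6 : ((1 : ℝ) / 2) ^ i ≤ 1 := pow_le_one₀ (by norm_num) (by norm_num)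
          simp only [hw]
          linarith
        exact mul_le_of_le_one_left (abs_nonneg _) hwi
      · exact ((summable_nat_add_iff k).2 (hsum t)).tsum_le_tsum
          (fun i => mul_le_of_le_one_right (hw0 _).le (hb _ t))
          ((summable_nat_add_iff k).2 hws.summable)
    have j1 : IntervalIntegrable (fun t => ∑ i ∈ Finset.range k, |F i t|) volume 0 R := by
      refine ii_of_bdd (C := k) (Finset.measurable_fun_sum _ fun i _ => (hF i).norm) (fun t => ?_)
        _ _
      rw [abs_of_nonneg (Finset.sum_nonneg fun i _ => abs_nonneg _)]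
      refine (Finset.sum_le_sum fun i _ => hb i t).trans (le_of_eq ?_)
      simp
    have j2 : IntervalIntegrable (fun _ : ℝ => ∑' i, w (i + k)) volume 0 R :=
      continuous_const.intervalIntegrable _ _
    have h6 : ∫ t in (0 : ℝ)..R, c t ≤
        (∑ i ∈ Finset.range k, ∫ t in (0 : ℝ)..R, |F i t|) + R * ∑' i, w (i + k) := by
      calc ∫ t in (0 : ℝ)..R, c t
          ≤ ∫ t in (0 : ℝ)..R, (∑ i ∈ Finset.range k, |F i t| + ∑' i, w (i + k)) := by
            refine intervalIntegral.integral_mono_on hRpos.le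
              (ii_of_bdd hcm (C := 1) (fun t => by rw [abs_of_nonneg (hc0 t)]; exact hc1 t) _ _)
              (j1.add j2) fun t _ => h5 t
        _ = (∑ i ∈ Finset.range k, ∫ t in (0 : ℝ)..R, |F i t|) + R * ∑' i, w (i + k) := by
            rw [intervalIntegral.integral_add j1 j2,
              intervalIntegral.integral_finset_sum fun i _ => hci i R,
              intervalIntegral.integral_const, smul_eq_mul, sub_zero]
    rw [inv_mul_lt_iff₀ hRpos]
    rw [← Finset.mul_sum, inv_mul_lt_iff₀ hRpos] at h3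
    nlinarith
  obtain ⟨J, hJm, hJ1, hJ2⟩ := kvn hcm hc0 hc1 hlim
  refine ⟨J, hJm, hJ1, fun i => ?_⟩
  rw [tendsto_zero_iff_abs_tendsto_zero]
  have h7 : Tendsto (fun t => (w i)⁻¹ * c t) (atTop ⊓ 𝓟 J) (𝓝 0) := by
    simpa using hJ2.const_mul (w i)⁻¹
  refine squeeze_zero (fun t => abs_nonneg _) (fun t => ?_) h7
  have h8 : w i * |F i t| ≤ c t :=
    (hsum t).le_tsum i fun j _ => mul_nonneg (hw0 j).le (abs_nonneg _)
  show |F i t| ≤ (w i)⁻¹ * c t
  rw [inv_mul_eq_div, le_div_iff₀ (hw0 i)]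
  linarith

/-- discrete averages over the shifts give the continuous average -/
lemma cont_of_disc {W : ℝ → ℝ} (hW : Measurable W) {C : ℝ} (hC : ∀ t, |W t| ≤ C)
    (h : ∀ᵐ s ∂(volume : Measure ℝ), Tendsto (fun n : ℕ => (n : ℝ)⁻¹ * ∑ k ∈ Finset.range n,
      |W (s + k)|) atTop (𝓝 0)) :
    Tendsto (fun R : ℝ => R⁻¹ * ∫ t in (0 : ℝ)..R, |W t|) atTop (𝓝 0) := by
  have hC0 : 0 ≤ C := (abs_nonneg _).trans (hC 0)
  have hii : ∀ a b : ℝ, IntervalIntegrable (fun t => |W t|) volume a b := fun a b =>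
    ii_of_bdd hW.norm (C := C) (fun t => by rw [Real.norm_eq_abs, abs_abs]; exact hC t) a b
  have hWs : ∀ k : ℕ, Measurable fun s : ℝ => |W (s + k)| := fun k =>
    (hW.comp (measurable_id.add_const _)).norm
  have hiis : ∀ k : ℕ, IntervalIntegrable (fun s : ℝ => |W (s + k)|) volume 0 1 := fun k =>
    ii_of_bdd (hWs k) (C := C) (fun t => by rw [abs_abs]; exact hC _) _ _
  -- the averages over `[0, 1]`
  have h1 : Tendsto (fun n : ℕ => ∫ s in (0 : ℝ)..1, (n : ℝ)⁻¹ * ∑ k ∈ Finset.range n, |W (s + k)|)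
      atTop (𝓝 (∫ _s in (0 : ℝ)..1, (0 : ℝ))) := by
    refine intervalIntegral.tendsto_integral_filter_of_dominated_convergence (fun _ => C)
      (Eventually.of_forall fun n => ?_) (Eventually.of_forall fun n => ?_)
      (continuous_const.intervalIntegrable _ _) ?_
    · exact ((Finset.measurable_fun_sum _ fun k _ => hWs k).const_mul _).aestronglyMeasurable
    · refine ae_of_all _ fun s _ => ?_
      rw [Real.norm_eq_abs, abs_mul, abs_inv, Nat.abs_cast,
        abs_of_nonneg (Finset.sum_nonneg fun i _ => abs_nonneg _)]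
      rcases Nat.eq_zero_or_pos n with rfl | hn
      · simpa using hC0
      · have hn1 : (0 : ℝ) < n := by exact_mod_cast hn
        rw [inv_mul_le_iff₀ hn1]
        calc ∑ k ∈ Finset.range n, |W (s + k)| ≤ ∑ k ∈ Finset.range n, C :=
              Finset.sum_le_sum fun k _ => hC _
          _ = n * C := by simp
    · filter_upwards [h] with s hs _
      exact hs
  rw [intervalIntegral.integral_zero] at h1
  have h2 : ∀ n : ℕ, ∫ s in (0 : ℝ)..1, (n : ℝ)⁻¹ * ∑ k ∈ Finset.range n, |W (s + k)| =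
      (n : ℝ)⁻¹ * ∫ t in (0 : ℝ)..n, |W t| := by
    intro n
    rw [intervalIntegral.integral_const_mul, intervalIntegral.integral_finset_sum fun k _ => hiis k]
    congr 1
    have h3 := intervalIntegral.sum_integral_adjacent_intervals (f := fun t => |W t|)
      (μ := volume) (a := fun k : ℕ => (k : ℝ)) (n := n) (fun k _ => hii _ _)
    rw [Nat.cast_zero] at h3
    rw [← h3]
    refine Finset.sum_congr rfl fun k _ => ?_
    rw [intervalIntegral.integral_comp_add_right (fun t => |W t|) (k : ℝ)]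
    congr 1
    · ring
    · push_cast; ring
  simp only [h2] at h1
  -- real times
  have h4 : Tendsto (fun R : ℝ => 2 * ((⌈R⌉₊ : ℝ)⁻¹ * ∫ t in (0 : ℝ)..⌈R⌉₊, |W t|)) atTop (𝓝 0) := by
    have := (h1.comp tendsto_nat_ceil_atTop (α := ℝ)).const_mul 2
    simpa using this
  refine squeeze_zero' ?_ ?_ h4
  · filter_upwards [eventually_ge_atTop 1] with R hR
    have hR0 : 0 < R := lt_of_lt_of_le one_pos hR
    exact mul_nonneg (inv_nonneg.2 hR0.le)
      (intervalIntegral.integral_nonneg hR0.le fun t _ => abs_nonneg _)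
  · filter_upwards [eventually_ge_atTop 1] with R hR
    have hR0 : 0 < R := lt_of_lt_of_le one_pos hR
    have hc1 : R ≤ ⌈R⌉₊ := Nat.le_ceil R
    have hc2 : (⌈R⌉₊ : ℝ) < R + 1 := Nat.ceil_lt_add_one hR0.le
    have hcp : (0 : ℝ) < ⌈R⌉₊ := lt_of_lt_of_le hR0 hc1
    have h5 : ∫ t in (0 : ℝ)..R, |W t| ≤ ∫ t in (0 : ℝ)..⌈R⌉₊, |W t| := by
      have h6 := intervalIntegral.integral_add_adjacent_intervals (hii 0 R) (hii R ⌈R⌉₊)
      have h7 : 0 ≤ ∫ t in R..⌈R⌉₊, |W t| :=
        intervalIntegral.integral_nonneg hc1 fun t _ => abs_nonneg _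
      linarith
    have h8 : 0 ≤ ∫ t in (0 : ℝ)..⌈R⌉₊, |W t| :=
      intervalIntegral.integral_nonneg hcp.le fun t _ => abs_nonneg _
    have h9 : R⁻¹ ≤ 2 * (⌈R⌉₊ : ℝ)⁻¹ := by
      rw [← div_eq_mul_inv, inv_eq_one_div, div_le_div_iff₀ hR0 hcp]
      linarith
    calc R⁻¹ * ∫ t in (0 : ℝ)..R, |W t| ≤ R⁻¹ * ∫ t in (0 : ℝ)..⌈R⌉₊, |W t| :=
          mul_le_mul_of_nonneg_left h5 (inv_nonneg.2 hR0.le)
      _ ≤ (2 * (⌈R⌉₊ : ℝ)⁻¹) * ∫ t in (0 : ℝ)..⌈R⌉₊, |W t| :=
          mul_le_mul_of_nonneg_right h9 h8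
      _ = 2 * ((⌈R⌉₊ : ℝ)⁻¹ * ∫ t in (0 : ℝ)..⌈R⌉₊, |W t|) := by ring

/-- two trajectories that agree at all rational times agree whenever one of them is inside the
table -/
lemma traj_eq {N : ℕ} (T : PolygonalTable N) {γ γ' : ℝ → ℂ × ℂ} (h : T.IsTrajectory γ)
    (h' : T.IsTrajectory γ') (hq : ∀ q : ℚ, γ q = γ' q) {t : ℝ} (ht : (γ t).1 ∈ T.Q) :
    γ' t = γ t := by
  have hrat : ∀ P : ℝ → Prop, (∀ᶠ s in 𝓝[<] t, P s) → ∃ q : ℚ, P q := by
    intro P hP
    obtain ⟨l, hl, hl2⟩ := (mem_nhdsLT_iff_exists_Ioo_subset (a := t)).1 hP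
    obtain ⟨q, hq1, hq2⟩ := exists_rat_btwn (show l < t from hl)
    exact ⟨q, hl2 ⟨hq1, hq2⟩⟩
  have key : ∀ u : ℂ, (∀ᶠ s in 𝓝[<] t, γ' s = ((γ' t).1 + (s - t) • u, u)) →
      (∀ᶠ s in 𝓝[<] t, γ s = ((γ t).1 + (s - t) • (γ t).2, (γ t).2)) →
      u = (γ t).2 ∧ (γ' t).1 = (γ t).1 := by
    intro u e1 e2
    obtain ⟨q, k1, k2⟩ := hrat _ (e1.and e2)
    rw [← hq q, k2] at k1
    have a1 := congrArg Prod.fst k1
    have a2 := congrArg Prod.snd k1
    simp only at a1 a2
    subst a2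
    exact ⟨rfl, (add_right_cancel a1).symm⟩
  rcases h t with ⟨-, e⟩ | ⟨i, u, hside, -, -⟩
  · have e' : ∀ᶠ s in 𝓝[<] t, γ s = ((γ t).1 + (s - t) • (γ t).2, (γ t).2) :=
      e.filter_mono nhdsWithin_le_nhds
    rcases h' t with ⟨-, k⟩ | ⟨i, u, hside, k, -⟩
    · obtain ⟨k1, k2⟩ := key _ (k.filter_mono nhdsWithin_le_nhds) e'
      exact Prod.ext k2 k1
    · obtain ⟨k1, k2⟩ := key _ k e'
      rw [k2] at hside
      exact absurd hside (rowC1_side T ht)
  · exact absurd hside (rowC1_side T ht)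

end Vale.Agent.P099.H717
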