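import Vale.Agent.P099.R2.H717.Dens1

/-! # P099: for almost every centre there is a set of radii of density one along which the
circles, and all their arcs, equidistribute. -/

set_option linter.all false

namespace Vale.Agent.P099.H717

open MeasureTheory Set Filter Topology Vale.Agent.P099 Vale.Agent.P099T Vale.Agent.P099.H366

lemma setInt_close {h : ℂ → ℝ} (hh : Measurable h) {C : ℝ} (hb : ∀ u, |h u| ≤ C) {G G' : Set ℂ}
    (hG : MeasurableSet G) (hG' : MeasurableSet G') :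
    |∫ u in G, h u ∂nu - ∫ u in G', h u ∂nu| ≤ C * nu.real (symmDiff G G') := by
  have := WF.isProb_nu
  have hi : Integrable h nu := Integrable.of_bound hh.aestronglyMeasurable C (ae_of_all _ hb)
  rw [← integral_indicator hG, ← integral_indicator hG',
    ← integral_sub (hi.indicator hG) (hi.indicator hG'), ← Real.norm_eq_abs]
  have hm : MeasurableSet (symmDiff G G') := hG.symmDiff hG'
  refine (norm_integral_le_integral_norm _).trans ?_
  have e : C * nu.real (symmDiff G G') = ∫ u, (symmDiff G G').indicator (fun _ => C) u ∂nu := by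
    rw [integral_indicator hm, setIntegral_const, smul_eq_mul, mul_comm]
  rw [e]
  refine integral_mono ((hi.indicator hG).sub (hi.indicator hG')).norm
    ((integrable_const C).indicator hm) fun u => ?_
  have hu := hb u
  have hC : 0 ≤ C := (abs_nonneg _).trans hu
  by_cases h1 : u ∈ G <;> by_cases h2 : u ∈ G' <;>
    simp [indicator, mem_symmDiff, h1, h2, hC, hu]

section

variable {N : ℕ} (T : PolygonalTable N)

/-- the centred angular average over the directions in `G` at time `t` -/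
noncomputable def Wd (Θ : ℝ → ℂ × ℂ → ℂ × ℂ) (f : ℂ × ℂ → ℝ) (G : Set ℂ) (p : ℂ) (t : ℝ) : ℝ :=
  ∫ u in G, f (Θ t (p, u)) ∂nu - nu.real G * ∫ z, f z ∂T.mu

lemma Wd_meas {Θ : ℝ → ℂ × ℂ → ℂ × ℂ} (hΘ : PFlow T.mu Θ) {f : ℂ × ℂ → ℝ} (hf : Measurable f)
    (G : Set ℂ) : Measurable fun x : ℂ × ℝ => Wd T Θ f G x.1 x.2 := by
  have := WF.isProb_nu
  unfold Wd
  refine Measurable.sub_const ?_ _
  have h1 : Measurable fun y : (ℂ × ℝ) × ℂ => f (Θ y.1.2 (y.1.1, y.2)) :=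
    hf.comp (hΘ.meas.comp (by fun_prop : Measurable fun y : (ℂ × ℝ) × ℂ =>
      (y.1.2, (y.1.1, y.2))))
  exact (h1.stronglyMeasurable.integral_prod_right' (ν := nu.restrict G)).measurable

lemma Wd_abs {Θ : ℝ → ℂ × ℂ → ℂ × ℂ} {f : ℂ × ℂ → ℝ} (hfb : ∀ z, |f z| ≤ 1)
    (G : Set ℂ) (p : ℂ) (t : ℝ) : |Wd T Θ f G p t| ≤ 2 := by
  have := isProb_mu T
  have := WF.isProb_nu
  unfold Wd
  have h1 : |∫ u in G, f (Θ t (p, u)) ∂nu| ≤ 1 := by
    rw [← Real.norm_eq_abs]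
    refine (norm_integral_le_of_norm_le_const (C := 1) (ae_of_all _ fun u => hfb _)).trans ?_
    rw [one_mul, measureReal_def, Measure.restrict_apply_univ]
    exact measureReal_le_one
  have h2 : |∫ z, f z ∂T.mu| ≤ 1 := by
    rw [← Real.norm_eq_abs]
    exact (norm_integral_le_of_norm_le_const (C := 1) (ae_of_all _ fun u => hfb _)).trans
      (by simp)
  have h3 : |nu.real G * ∫ z, f z ∂T.mu| ≤ 1 := by
    rw [abs_mul, abs_of_nonneg measureReal_nonneg]
    exact mul_le_one₀ measureReal_le_one (abs_nonneg _) h2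
  refine (abs_sub _ _).trans ?_
  linarith

lemma int_comp {Θ : ℝ → ℂ × ℂ → ℂ × ℂ} (hΘ : PFlow T.mu Θ) (s : ℝ) {g : ℂ × ℂ → ℝ}
    (hg : Measurable g) : ∫ z, g (Θ s z) ∂T.mu = ∫ z, g z ∂T.mu := by
  have h := integral_map (μ := T.mu) (hΘ.mp s).measurable.aemeasurable (f := g)
    hg.aestronglyMeasurable
  rw [(hΘ.mp s).map_eq] at h
  exact h.symm

/-- almost every centre, almost every shift, unit steps -/
lemma Wd_disc (hT : T.IsIrrational) {Θ : ℝ → ℂ × ℂ → ℂ × ℂ} (hΘ : PFlow T.mu Θ)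
    (hb : T.IsBilliardFlow Θ) {f : ℂ × ℂ → ℝ} (hf : Measurable f) (hfb : ∀ z, |f z| ≤ 1)
    (hfc : Tendsto (fun s => ∫ z, |f (Θ s z) - f z| ∂T.mu) (𝓝[>] 0) (𝓝 0))
    {G : Set ℂ} (hG : MeasurableSet G) :
    ∀ᵐ p ∂(kap T), ∀ᵐ s ∂(volume : Measure ℝ), Tendsto (fun n : ℕ => (n : ℝ)⁻¹ *
      ∑ k ∈ Finset.range n, |Wd T Θ f G p (s + k)|) atTop (𝓝 0) := by
  have := isProb_kap T
  have := isProb_mu T
  have := WF.isProb_nu
  have hF : H184Abs.Flow T.mu Θ := ⟨hΘ.meas, hΘ.mp, hΘ.add, hΘ.zero⟩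
  rw [← Measure.ae_ae_comm (p := fun (s : ℝ) (p : ℂ) => Tendsto (fun n : ℕ => (n : ℝ)⁻¹ *
      ∑ k ∈ Finset.range n, |Wd T Θ f G p (s + k)|) atTop (𝓝 0))]
  · refine ae_of_all _ fun s => ?_
    have hfs : Measurable fun z => f (Θ s z) := hf.comp (hΘ.mp s).measurable
    have hc : Tendsto (fun r => ∫ z, |f (Θ s (Θ r z)) - f (Θ s z)| ∂T.mu) (𝓝[>] 0) (𝓝 0) := by
      refine hfc.congr fun r => ?_
      have hg : Measurable fun z => |f (Θ r z) - f z| :=
        ((hf.comp (hΘ.mp r).measurable).sub hf).norm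
      rw [← int_comp T hΘ s hg]
      refine integral_congr_ae ?_
      filter_upwards [hΘ.add s r, hΘ.add r s] with z h1 h2
      rw [← h2, ← h1, add_comm]
    have h1 := front_fun T hT hΘ hb (τ := 1) one_ne_zero hfs (fun z => hfb _) hc
    have h2 : ∀ᵐ z ∂T.mu, ∀ k : ℕ, Θ s ((Θ 1)^[k] z) = Θ (s + k) z := by
      rw [ae_all_iff]
      intro k
      filter_upwards [H184Abs.iterate_ae hF 1 k, hΘ.add s (k * 1)] with z h3 h4
      rw [← h3, ← h4, mul_one]
    have h3 := Measure.ae_ae_of_ae_prod h2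
    filter_upwards [h1, h3] with p k1 k3
    refine (k1 G hG).congr fun n => ?_
    congr 1
    refine Finset.sum_congr rfl fun k _ => ?_
    have e1 : ∫ u in G, f (Θ s ((Θ 1)^[k] (p, u))) ∂nu = ∫ u in G, f (Θ (s + k) (p, u)) ∂nu := by
      refine integral_congr_ae (ae_restrict_of_ae ?_)
      filter_upwards [k3] with u hu
      simp only [hu k]
    unfold Wd
    rw [e1, int_comp T hΘ s hf]
  · refine measurableSet_tendsto_fun (f := fun (n : ℕ) (x : ℝ × ℂ) => (n : ℝ)⁻¹ *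
      ∑ k ∈ Finset.range n, |Wd T Θ f G x.2 (x.1 + k)|) (g := fun _ => 0) (fun n => ?_)
      measurable_const
    refine (Finset.measurable_fun_sum _ fun k _ => ?_).const_mul _
    exact ((Wd_meas T hΘ hf G).comp (by fun_prop : Measurable fun x : ℝ × ℂ =>
      (x.2, x.1 + (k : ℝ)))).norm

/-- the inner phase space -/
def K0 : Set (ℂ × ℂ) := {z | z.1 ∈ T.Q ∧ ‖z.2‖ = 1}

lemma K0_meas : MeasurableSet (K0 T) :=
  (measurable_fst T.isOpen.measurableSet).inter
    (measurableSet_eq_fun (measurable_snd.norm) measurable_const)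

lemma K0_sub : K0 T ⊆ KK T := fun z hz => ⟨subset_closure hz.1, by simpa using hz.2⟩

lemma ae_K0 : ∀ᵐ z ∂T.mu, z ∈ K0 T := by
  have := isProb_kap T
  have := WF.isProb_nu
  have h1 : ∀ᵐ p ∂(kap T), p ∈ T.Q := ProbabilityTheory.ae_cond_mem T.isOpen.measurableSet
  have h2 : ∀ᵐ z ∂T.mu, z.1 ∈ T.Q := Measure.quasiMeasurePreserving_fst.ae h1
  have h3 : ∀ᵐ z ∂T.mu, ‖z.2‖ = 1 := Measure.quasiMeasurePreserving_snd.ae WF.ae_norm_nu
  filter_upwards [h2, h3] with z k2 k3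
  exact ⟨k2, k3⟩

/-- good times of a centre -/
def good (Θ : ℝ → ℂ × ℂ → ℂ × ℂ) (p : ℂ) : Set ℝ := {t | ∀ᵐ u ∂nu, Θ t (p, u) ∈ K0 T}

lemma good_meas {Θ : ℝ → ℂ × ℂ → ℂ × ℂ} (hΘ : PFlow T.mu Θ) (p : ℂ) :
    MeasurableSet (good T Θ p) := by
  have := WF.isProb_nu
  have hm : Measurable fun x : ℝ × ℂ => Θ x.1 (p, x.2) :=
    hΘ.meas.comp (by fun_prop : Measurable fun x : ℝ × ℂ => (x.1, (p, x.2)))
  have e : good T Θ p = {t | nu (Prod.mk t ⁻¹' ((fun x : ℝ × ℂ => Θ x.1 (p, x.2)) ⁻¹'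
      (K0 T)ᶜ)) = 0} := rfl
  rw [e]
  exact measurable_measure_prodMk_left (hm (K0_meas T).compl) (measurableSet_singleton 0)

lemma good_ae {Θ : ℝ → ℂ × ℂ → ℂ × ℂ} (hΘ : PFlow T.mu Θ) :
    ∀ᵐ p ∂(kap T), ∀ᵐ t ∂(volume : Measure ℝ), t ∈ good T Θ p := by
  have := isProb_kap T
  have := isProb_mu T
  have := WF.isProb_nu
  have h1 : ∀ᵐ z ∂T.mu, ∀ᵐ t ∂(volume : Measure ℝ), Θ t z ∈ K0 T := by
    rw [← Measure.ae_ae_comm (p := fun (t : ℝ) (z : ℂ × ℂ) => Θ t z ∈ K0 T)]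
    · exact ae_of_all _ fun t => (hΘ.mp t).quasiMeasurePreserving.ae (ae_K0 T)
    · exact hΘ.meas (K0_meas T)
  filter_upwards [Measure.ae_ae_of_ae_prod h1] with p hp
  have hm : Measurable fun x : ℝ × ℂ => Θ x.1 (p, x.2) :=
    hΘ.meas.comp (by fun_prop : Measurable fun x : ℝ × ℂ => (x.1, (p, x.2)))
  exact (Measure.ae_ae_comm (p := fun (t : ℝ) (u : ℂ) => Θ t (p, u) ∈ K0 T)
    (hm (K0_meas T))).2 hp

/-- **(P4)** For almost every centre `p` there is a set `J` of radii of density one such that the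
circles of radius `t ∈ J`, and all their arcs, equidistribute as `t → ∞`. -/
theorem front_density (hT : T.IsIrrational) {Φ : ℝ → ℂ × ℂ → ℂ × ℂ} (hΦ : T.IsBilliardFlow Φ) :
    ∀ᵐ p ∂(ProbabilityTheory.cond (volume : Measure ℂ) T.Q), ∃ J : Set ℝ, MeasurableSet J ∧
      Tendsto (fun R : ℝ => volume.real (J ∩ Ioc 0 R) / R) atTop (𝓝 1) ∧
      ∀ G : Set ℂ, MeasurableSet G → ∀ g : ℂ × ℂ → ℝ, Continuous g →
        Tendsto (fun t : ℝ => ∫ u in G, g (Φ t (p, u)) ∂nu) (atTop ⊓ 𝓟 J)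
          (𝓝 (nu.real G * ∫ z, g z ∂T.mu)) := by
  have := isProb_kap T
  have := isProb_mu T
  have := WF.isProb_nu
  obtain ⟨Θ, hΘ, hb, hu⟩ := exists_good_table_flow T
  set D : ℕ → C(ℂ × ℂ, ℝ) := TopologicalSpace.denseSeq C(ℂ × ℂ, ℝ) with hD
  obtain ⟨𝒜, hcount, hdense⟩ := exists_countable_measureDense nu
  obtain ⟨Gs, hGs⟩ := hcount.exists_eq_range hdense.nonempty
  have hGm : ∀ i, MeasurableSet (Gs i) := fun i => hdense.measurable _ (hGs ▸ mem_range_self i)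
  have h1 : ∀ᵐ p ∂(kap T), ∀ j M i : ℕ, ∀ᵐ s ∂(volume : Measure ℝ),
      Tendsto (fun n : ℕ => (n : ℝ)⁻¹ *
        ∑ k ∈ Finset.range n, |Wd T Θ (cut (D j) M) (Gs i) p (s + k)|) atTop (𝓝 0) := by
    simp only [ae_all_iff]
    intro j M i
    exact Wd_disc T hT hΘ hb (cut_cont (D j).continuous M).measurable (cut_abs _ _)
      (continuous_cont T hΘ hb (cut_cont (D j).continuous M) (cut_abs _ _)) (hGm i)
  -- the given version and the good version agree at good times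
  have h2 : ∀ᵐ z ∂T.mu, ∀ t : ℝ, Θ t z ∈ K0 T → Φ t z = Θ t z := by
    have hq : ∀ᵐ z ∂T.mu, ∀ q : ℚ, Φ q z = Θ q z := by
      rw [ae_all_iff]
      exact fun q => hu Φ hΦ q
    filter_upwards [hb, hΦ, hq] with z k1 k2 k3 t ht
    exact traj_eq T k1.2 k2.2 (fun q => (k3 q).symm) ht.1
  have h3 := Measure.ae_ae_of_ae_prod h2
  filter_upwards [h1, h3, good_ae T hΘ] with p k1 k3 k4
  -- one set of times
  set F : ℕ → ℝ → ℝ := fun m t => Wd T Θ (cut (D (Nat.unpair m).1) (Nat.unpair (Nat.unpair m).2).1)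
    (Gs (Nat.unpair (Nat.unpair m).2).2) p t / 2 with hF
  have hWm : ∀ j M i : ℕ, Measurable fun t => Wd T Θ (cut (D j) M) (Gs i) p t := fun j M i =>
    (Wd_meas T hΘ (cut_cont (D j).continuous M).measurable (Gs i)).comp
      (by fun_prop : Measurable fun t : ℝ => (p, t))
  have hFm : ∀ m, Measurable (F m) := fun m => (hWm _ _ _).div_const 2
  have hFb : ∀ m t, |F m t| ≤ 1 := by
    intro m t
    simp only [hF]
    rw [abs_div, abs_of_pos (two_pos : (0 : ℝ) < 2), div_le_one two_pos]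
    exact Wd_abs T (cut_abs _ _) _ _ _
  have hFl : ∀ m, Tendsto (fun R : ℝ => R⁻¹ * ∫ t in (0 : ℝ)..R, |F m t|) atTop (𝓝 0) := by
    intro m
    refine cont_of_disc (hFm m) (hFb m) ?_
    filter_upwards [k1 (Nat.unpair m).1 (Nat.unpair (Nat.unpair m).2).1
      (Nat.unpair (Nat.unpair m).2).2] with s hs
    have h5 := hs.const_mul (1 / 2)
    rw [mul_zero] at h5
    refine h5.congr fun n => ?_
    simp only [hF]
    rw [← mul_assoc, mul_comm (1 / 2 : ℝ), mul_assoc, Finset.mul_sum]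
    congr 1
    refine Finset.sum_congr rfl fun k _ => ?_
    rw [abs_div, abs_of_pos (two_pos : (0 : ℝ) < 2)]
    ring
  obtain ⟨J0, hJ0m, hJ01, hJ02⟩ := exists_density_one hFm hFb hFl
  refine ⟨J0 ∩ good T Θ p, hJ0m.inter (good_meas T hΘ p), ?_, ?_⟩
  · refine hJ01.congr fun R => ?_
    congr 1
    apply measureReal_congr
    filter_upwards [k4] with t ht
    apply propext
    show (t ∈ J0 ∧ t ∈ Ioc 0 R) ↔ ((t ∈ J0 ∧ t ∈ good T Θ p) ∧ t ∈ Ioc 0 R)
    constructor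
    · rintro ⟨a, b⟩; exact ⟨⟨a, ht⟩, b⟩
    · rintro ⟨⟨a, -⟩, b⟩; exact ⟨a, b⟩
  intro G hG g hg
  -- a bound for `g` on the phase space
  obtain ⟨M, hM⟩ : ∃ M : ℕ, ∀ z ∈ KK T, |g z| ≤ (M : ℝ) := by
    obtain ⟨C, hC⟩ := (isCompact_KK T).exists_bound_of_continuousOn hg.continuousOn
    obtain ⟨M, hM⟩ := exists_nat_ge C
    exact ⟨M, fun z hz => (hC z hz).trans hM⟩
  have hM1 : (0 : ℝ) < (M : ℝ) + 1 := by positivity
  rw [Metric.tendsto_nhds]
  intro ε hε
  set η : ℝ := min 1 (ε / 8) with hη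
  have hη0 : 0 < η := lt_min one_pos (by positivity)
  have hη8 : η ≤ ε / 8 := min_le_right _ _
  -- approximation of `g`
  obtain ⟨j, hj⟩ : ∃ j : ℕ, ∀ z ∈ KK T, |D j z - g z| < η := by
    set gC : C(ℂ × ℂ, ℝ) := ⟨g, hg⟩ with hgC
    have hop : IsOpen {h : C(ℂ × ℂ, ℝ) | MapsTo (h - gC) (KK T) (Metric.ball 0 η)} :=
      (ContinuousMap.isOpen_setOf_mapsTo (isCompact_KK T) Metric.isOpen_ball).preimage
        (continuous_id.sub continuous_const)
    have hne : ({h : C(ℂ × ℂ, ℝ) | MapsTo (h - gC) (KK T) (Metric.ball 0 η)}).Nonempty := by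
      refine ⟨gC, fun z _ => ?_⟩
      simp [hη0]
    obtain ⟨x, hx, j, hj⟩ := (TopologicalSpace.denseRange_denseSeq C(ℂ × ℂ, ℝ)).inter_open_nonempty
      _ hop hne
    refine ⟨j, fun z hz => ?_⟩
    have h5 := hx hz
    rw [← hj] at h5
    simpa [hD, hgC] using h5
  have hDM : ∀ z ∈ KK T, |D j z| ≤ (M : ℝ) + 1 := by
    intro z hz
    have h5 := hj z hz
    have h6 := hM z hz
    have h7 : |D j z| ≤ |D j z - g z| + |g z| := by
      have := abs_add_le (D j z - g z) (g z)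
      simpa using this
    have h8 : η ≤ 1 := min_le_left _ _
    linarith
  -- approximation of `G`
  obtain ⟨A', hA', hAA⟩ := hdense.approx G hG (measure_ne_top _ _) (ε / (8 * ((M : ℝ) + 1)))
    (by positivity)
  rw [hGs] at hA'
  obtain ⟨i, rfl⟩ := hA'
  have hsym : ((M : ℝ) + 1) * nu.real (symmDiff G (Gs i)) ≤ ε / 8 := by
    have h4 : nu.real (symmDiff G (Gs i)) < ε / (8 * ((M : ℝ) + 1)) :=
      (ENNReal.lt_ofReal_iff_toReal_lt (measure_ne_top _ _)).1 hAA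
    rw [lt_div_iff₀ (by positivity)] at h4
    linarith
  -- the limit
  have hlim : Tendsto (fun t => ((M : ℝ) + 1) * |Wd T Θ (cut (D j) M) (Gs i) p t|)
      (atTop ⊓ 𝓟 (J0 ∩ good T Θ p)) (𝓝 0) := by
    have h5 := hJ02 (Nat.pair j (Nat.pair M i))
    simp only [hF, Nat.unpair_pair] at h5
    have h6 : Tendsto (fun t => Wd T Θ (cut (D j) M) (Gs i) p t / 2)
        (atTop ⊓ 𝓟 (J0 ∩ good T Θ p)) (𝓝 0) :=
      h5.mono_left (inf_le_inf_left _ (principal_mono.2 inter_subset_left))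
    have h7 := (h6.abs).const_mul (2 * ((M : ℝ) + 1))
    rw [abs_zero, mul_zero] at h7
    refine h7.congr fun t => ?_
    rw [abs_div, abs_of_pos (two_pos : (0 : ℝ) < 2)]
    ring
  have hev : ∀ᶠ t in atTop ⊓ 𝓟 (J0 ∩ good T Θ p),
      ((M : ℝ) + 1) * |Wd T Θ (cut (D j) M) (Gs i) p t| < ε / 8 :=
    hlim.eventually (gt_mem_nhds (by positivity))
  have hmem : ∀ᶠ t in atTop ⊓ 𝓟 (J0 ∩ good T Θ p), t ∈ J0 ∩ good T Θ p :=
    mem_inf_of_right (mem_principal_self _)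
  have hGle : nu.real G ≤ 1 := measureReal_le_one
  have hG0 : 0 ≤ nu.real G := measureReal_nonneg
  filter_upwards [hev, hmem] with t ht1 ht2
  rw [Real.dist_eq]
  -- the given version
  have e0 : ∫ u in G, g (Φ t (p, u)) ∂nu = ∫ u in G, g (Θ t (p, u)) ∂nu := by
    refine integral_congr_ae (ae_restrict_of_ae ?_)
    have hg2 : ∀ᵐ u ∂nu, Θ t (p, u) ∈ K0 T := ht2.2
    filter_upwards [k3, hg2] with u a b
    simp only [a t b]
  have hKt : ∀ᵐ u ∂nu, Θ t (p, u) ∈ KK T := by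
    have hg2 : ∀ᵐ u ∂nu, Θ t (p, u) ∈ K0 T := ht2.2
    filter_upwards [hg2] with u hu
    exact K0_sub T hu
  have hSm : Measurable fun u : ℂ => Θ t (p, u) :=
    (hΘ.mp t).measurable.comp (by fun_prop : Measurable fun u : ℂ => (p, u))
  have hgi : Integrable (fun u => g (Θ t (p, u))) (nu.restrict G) := by
    refine Integrable.of_bound (C := (M : ℝ)) (hg.measurable.comp hSm).aestronglyMeasurable
      (ae_restrict_of_ae ?_)
    filter_upwards [hKt] with u hu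
    exact hM _ hu
  have hcm : Measurable fun u => cut (D j) M (Θ t (p, u)) :=
    (cut_cont (D j).continuous M).measurable.comp hSm
  have hci : Integrable (fun u => cut (D j) M (Θ t (p, u))) (nu.restrict G) :=
    Integrable.of_bound (C := 1) hcm.aestronglyMeasurable (ae_of_all _ fun u => cut_abs _ _ _)
  have a1 : |∫ u in G, g (Θ t (p, u)) ∂nu -
      ((M : ℝ) + 1) * ∫ u in G, cut (D j) M (Θ t (p, u)) ∂nu| ≤ η := by
    rw [← integral_const_mul, ← integral_sub hgi (hci.const_mul _), ← Real.norm_eq_abs]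
    refine (norm_integral_le_of_norm_le_const (C := η) ?_).trans ?_
    · refine ae_restrict_of_ae ?_
      filter_upwards [hKt] with u hu
      rw [cut_eq (hDM _ hu), mul_div_cancel₀ _ hM1.ne', Real.norm_eq_abs, abs_sub_comm]
      exact (hj _ hu).le
    · have : (nu.restrict G).real univ ≤ 1 := by
        rw [measureReal_def, Measure.restrict_apply_univ]
        exact hGle
      nlinarith [hη0]
  have a2 : |∫ z, g z ∂T.mu - ((M : ℝ) + 1) * ∫ z, cut (D j) M z ∂T.mu| ≤ η := by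
    have hgi' : Integrable g T.mu := by
      refine Integrable.of_bound (C := (M : ℝ)) hg.measurable.aestronglyMeasurable ?_
      filter_upwards [ae_KK T] with z hz
      exact hM _ hz
    have hci' : Integrable (cut (D j) M) T.mu :=
      Integrable.of_bound (cut_cont (D j).continuous M).measurable.aestronglyMeasurable 1
        (ae_of_all _ fun u => cut_abs _ _ _)
    rw [← integral_const_mul, ← integral_sub hgi' (hci'.const_mul _), ← Real.norm_eq_abs]
    refine (norm_integral_le_of_norm_le_const (C := η) ?_).trans ?_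
    · filter_upwards [ae_KK T] with z hz
      rw [cut_eq (hDM _ hz), mul_div_cancel₀ _ hM1.ne', Real.norm_eq_abs, abs_sub_comm]
      exact (hj _ hz).le
    · simp
  have a3 := setInt_close hcm (C := 1) (fun u => cut_abs _ _ _) hG (hGm i)
  have a4 : |nu.real G - nu.real (Gs i)| ≤ nu.real (symmDiff G (Gs i)) :=
    abs_measureReal_sub_le_measureReal_symmDiff hG.nullMeasurableSet (hGm i).nullMeasurableSet
  have a5 : |∫ z, cut (D j) M z ∂T.mu| ≤ 1 := by
    rw [← Real.norm_eq_abs]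
    exact (norm_integral_le_of_norm_le_const (C := 1) (ae_of_all _ fun u => cut_abs _ _ _)).trans
      (by simp)
  rw [e0]
  unfold Wd at ht1
  set x := ∫ u in G, g (Θ t (p, u)) ∂nu
  set X := ∫ z, g z ∂T.mu
  set y := ∫ u in G, cut (D j) M (Θ t (p, u)) ∂nu
  set y' := ∫ u in Gs i, cut (D j) M (Θ t (p, u)) ∂nu
  set Y := ∫ z, cut (D j) M z ∂T.mu
  set a := nu.real G
  set a' := nu.real (Gs i)
  set σ := nu.real (symmDiff G (Gs i))
  have c1 : x - a * X = (x - ((M : ℝ) + 1) * y) + ((M : ℝ) + 1) * (y - y') +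
      ((M : ℝ) + 1) * (y' - a' * Y) + ((M : ℝ) + 1) * ((a' - a) * Y) +
      (-(a * (X - ((M : ℝ) + 1) * Y))) := by ring
  have b2 : |((M : ℝ) + 1) * (y - y')| ≤ ε / 8 := by
    rw [abs_mul, abs_of_pos hM1]
    exact (mul_le_mul_of_nonneg_left (by linarith) hM1.le).trans hsym
  have b3 : |((M : ℝ) + 1) * (y' - a' * Y)| < ε / 8 := by
    rw [abs_mul, abs_of_pos hM1]; exact ht1
  have b4 : |((M : ℝ) + 1) * ((a' - a) * Y)| ≤ ε / 8 := by
    rw [abs_mul, abs_of_pos hM1, abs_mul]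
    refine (mul_le_mul_of_nonneg_left ?_ hM1.le).trans hsym
    rw [abs_sub_comm]
    calc |a - a'| * |Y| ≤ σ * 1 := mul_le_mul a4 a5 (abs_nonneg _) measureReal_nonneg
      _ = σ := mul_one _
  have b5 : |-(a * (X - ((M : ℝ) + 1) * Y))| ≤ ε / 8 := by
    rw [abs_neg, abs_mul, abs_of_nonneg hG0]
    calc a * |X - ((M : ℝ) + 1) * Y| ≤ 1 * η := mul_le_mul hGle a2 (abs_nonneg _) zero_le_one
      _ ≤ ε / 8 := by linarith
  rw [c1]
  have t1 := abs_add_le ((x - ((M : ℝ) + 1) * y) + ((M : ℝ) + 1) * (y - y') +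
      ((M : ℝ) + 1) * (y' - a' * Y) + ((M : ℝ) + 1) * ((a' - a) * Y))
      (-(a * (X - ((M : ℝ) + 1) * Y)))
  have t2 := abs_add_le ((x - ((M : ℝ) + 1) * y) + ((M : ℝ) + 1) * (y - y') +
      ((M : ℝ) + 1) * (y' - a' * Y)) (((M : ℝ) + 1) * ((a' - a) * Y))
  have t3 := abs_add_three (x - ((M : ℝ) + 1) * y) (((M : ℝ) + 1) * (y - y'))
      (((M : ℝ) + 1) * (y' - a' * Y))
  linarith

end

end Vale.Agent.P099.H717
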