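import Vale.Agent.P099.R2.H717.Pair
import Vale.Agent.P099.R2.H533.Abs
import Vale.Agent.P099.R2.H366.RowC1
import Vale.Agent.P099.R2.H366.RowC2
import Mathlib.Topology.ContinuousMap.SecondCountableSpace

/-! # P099: the wave front of almost every single light source. -/

set_option linter.all false

namespace Vale.Agent.P099.H717

open MeasureTheory Set Filter Topology Vale.Agent.P099 Vale.Agent.P099T Vale.Agent.P099.H366

/-- Angular averages converge in the mean when almost every direction and almost every pair of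
directions are generic. -/
theorem cesaro_of_pairs {U : Type} [MeasurableSpace U] {ν : Measure U} [IsProbabilityMeasure ν]
    {W : ℕ → U → ℝ} (hW : ∀ k, Measurable (W k)) (hWb : ∀ k u, |W k u| ≤ 1) {c : ℝ}
    (h1 : ∀ᵐ u ∂ν, Tendsto (fun n : ℕ => (n : ℝ)⁻¹ * ∑ k ∈ Finset.range n, W k u) atTop (𝓝 c))
    (h2 : ∀ᵐ z ∂(ν.prod ν), Tendsto (fun n : ℕ => (n : ℝ)⁻¹ * ∑ k ∈ Finset.range n,
      W k z.1 * W k z.2) atTop (𝓝 (c * c)))
    {G : Set U} (hG : MeasurableSet G) :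
    Tendsto (fun n : ℕ => (n : ℝ)⁻¹ * ∑ k ∈ Finset.range n,
      |∫ u in G, W k u ∂ν - ν.real G * c|) atTop (𝓝 0) := by
  set m : Measure U := ν.restrict G with hm
  have hm1 : m ≪ ν := Measure.absolutelyContinuous_of_le Measure.restrict_le_self
  set I : ℕ → ℝ := fun k => ∫ u, W k u ∂m with hI
  set a : ℝ := ν.real G with ha
  have hma : m.real univ = a := by
    rw [hm, measureReal_def, Measure.restrict_apply_univ]; rfl
  have hint : ∀ k, Integrable (W k) m := fun k =>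
    Integrable.of_bound (hW k).aestronglyMeasurable 1 (ae_of_all _ fun u => hWb k u)
  have hav : ∀ (n : ℕ) (x : ℕ → ℝ), (∀ k, |x k| ≤ 1) →
      ‖(n : ℝ)⁻¹ * ∑ k ∈ Finset.range n, x k‖ ≤ 1 := by
    intro n x hx
    rw [Real.norm_eq_abs, abs_mul, abs_inv, Nat.abs_cast]
    rcases Nat.eq_zero_or_pos n with rfl | hn
    · simp
    · have hn1 : (0 : ℝ) < n := by exact_mod_cast hn
      rw [inv_mul_le_iff₀ hn1]
      calc |∑ k ∈ Finset.range n, x k| ≤ ∑ k ∈ Finset.range n, |x k| :=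
            Finset.abs_sum_le_sum_abs _ _
        _ ≤ ∑ k ∈ Finset.range n, (1 : ℝ) := Finset.sum_le_sum fun k _ => hx k
        _ = n * 1 := by simp
  -- first moment
  have e1 : Tendsto (fun n : ℕ => (n : ℝ)⁻¹ * ∑ k ∈ Finset.range n, I k) atTop (𝓝 (a * c)) := by
    have k1 : Tendsto (fun n : ℕ => ∫ u, (n : ℝ)⁻¹ * ∑ k ∈ Finset.range n, W k u ∂m) atTop
        (𝓝 (∫ _u, c ∂m)) := by
      refine tendsto_integral_of_dominated_convergence (fun _ => 1)
        (fun n => ?_) (integrable_const _) (fun n => ae_of_all _ fun u => ?_) (hm1.ae_le h1)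
      · exact ((Finset.measurable_fun_sum _ fun k _ => hW k).const_mul _).aestronglyMeasurable
      · exact hav n (fun k => W k u) fun k => hWb k u
    rw [integral_const, hma, smul_eq_mul] at k1
    refine k1.congr fun n => ?_
    rw [integral_const_mul, integral_finsetSum _ fun k _ => hint k]
  -- second moment
  have e2 : Tendsto (fun n : ℕ => (n : ℝ)⁻¹ * ∑ k ∈ Finset.range n, I k ^ 2) atTop
      (𝓝 ((a * c) ^ 2)) := by
    have hmm : m.prod m ≪ ν.prod ν := hm1.prod hm1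
    have k1 : Tendsto (fun n : ℕ => ∫ z, (n : ℝ)⁻¹ * ∑ k ∈ Finset.range n, W k z.1 * W k z.2
        ∂(m.prod m)) atTop (𝓝 (∫ _z, c * c ∂(m.prod m))) := by
      refine tendsto_integral_of_dominated_convergence (fun _ => 1)
        (fun n => ?_) (integrable_const _) (fun n => ae_of_all _ fun z => ?_) (hmm.ae_le h2)
      · exact ((Finset.measurable_fun_sum _ fun k _ => ((hW k).comp measurable_fst).mul
          ((hW k).comp measurable_snd)).const_mul _).aestronglyMeasurable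
      · refine hav n (fun k => W k z.1 * W k z.2) fun k => ?_
        rw [abs_mul]
        exact mul_le_one₀ (hWb _ _) (abs_nonneg _) (hWb _ _)
    have k2 : (m.prod m).real univ = a * a := by
      rw [← univ_prod_univ, measureReal_prod_prod, hma]
    rw [integral_const, k2, smul_eq_mul] at k1
    have k3 : a * a * (c * c) = (a * c) ^ 2 := by ring
    rw [k3] at k1
    refine k1.congr fun n => ?_
    rw [integral_const_mul, integral_finsetSum]
    · congr 1
      refine Finset.sum_congr rfl fun k _ => ?_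
      rw [integral_prod_mul, sq]
    · intro k _
      exact (hint k).mul_prod (hint k)
  -- variance
  have e3 : Tendsto (fun n : ℕ => (n : ℝ)⁻¹ * ∑ k ∈ Finset.range n, (I k - a * c) ^ 2) atTop
      (𝓝 0) := by
    have k1 := (e2.sub (e1.const_mul (2 * (a * c)))).add_const ((a * c) ^ 2)
    have k2 : (a * c) ^ 2 - 2 * (a * c) * (a * c) + (a * c) ^ 2 = 0 := by ring
    rw [k2] at k1
    refine k1.congr' ?_
    filter_upwards [eventually_ge_atTop 1] with n hn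
    have hn' : (n : ℝ) ≠ 0 := by
      have : n ≠ 0 := by omega
      exact_mod_cast this
    have k3 : ∑ k ∈ Finset.range n, (I k - a * c) ^ 2 = ∑ k ∈ Finset.range n, I k ^ 2 -
        2 * (a * c) * ∑ k ∈ Finset.range n, I k + n * (a * c) ^ 2 := by
      rw [Finset.mul_sum, ← Finset.sum_sub_distrib]
      have : (n : ℝ) * (a * c) ^ 2 = ∑ k ∈ Finset.range n, (a * c) ^ 2 := by simp
      rw [this, ← Finset.sum_add_distrib]
      exact Finset.sum_congr rfl fun k _ => by ring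
    rw [k3]
    field_simp
  -- Cauchy-Schwarz
  have e4 := e3.sqrt
  rw [Real.sqrt_zero] at e4
  refine squeeze_zero (fun n => ?_) (fun n => ?_) e4
  · exact mul_nonneg (by positivity) (Finset.sum_nonneg fun k _ => abs_nonneg _)
  · refine Real.le_sqrt_of_sq_le ?_
    have k1 := sq_sum_le_card_mul_sum_sq (s := Finset.range n) (f := fun k => |I k - a * c|)
    simp only [Finset.card_range, sq_abs] at k1
    rcases Nat.eq_zero_or_pos n with rfl | hn
    · simp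
    · have hn1 : (0 : ℝ) < n := by exact_mod_cast hn
      rw [mul_pow]
      calc ((n : ℝ)⁻¹) ^ 2 * (∑ k ∈ Finset.range n, |I k - a * c|) ^ 2
          ≤ ((n : ℝ)⁻¹) ^ 2 * (n * ∑ k ∈ Finset.range n, (I k - a * c) ^ 2) :=
            mul_le_mul_of_nonneg_left k1 (by positivity)
        _ = (n : ℝ)⁻¹ * ∑ k ∈ Finset.range n, (I k - a * c) ^ 2 := by
            field_simp

section geom

variable {N : ℕ} (T : PolygonalTable N)

/-- uniform position -/
noncomputable abbrev kap : Measure ℂ := ProbabilityTheory.cond volume T.Q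

lemma volume_Q_ne_zero : (volume : Measure ℂ) T.Q ≠ 0 :=
  (T.isOpen.measure_pos volume T.isConnected.nonempty).ne'

lemma volume_Q_ne_top : (volume : Measure ℂ) T.Q ≠ ⊤ :=
  T.isBounded.measure_lt_top.ne

lemma isProb_kap : IsProbabilityMeasure (kap T) :=
  ProbabilityTheory.cond_isProbabilityMeasure_of_finite (volume_Q_ne_zero T) (volume_Q_ne_top T)

lemma isProb_mu : IsProbabilityMeasure T.mu := by
  have := isProb_kap T
  have := WF.isProb_nu
  unfold PolygonalTable.mu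
  infer_instance

lemma ae_volume_of_kap {P : ℂ → Prop} (h : ∀ᵐ p ∂(kap T), P p) :
    ∀ᵐ p ∂(volume : Measure ℂ), p ∈ T.Q → P p := by
  rw [← ae_restrict_iff' T.isOpen.measurableSet]
  unfold kap at h
  rw [ProbabilityTheory.cond] at h
  exact (Measure.ae_ennreal_smul_measure_iff (ENNReal.inv_ne_zero.2 (volume_Q_ne_top T))).1 h

lemma restrict_ac : (volume : Measure ℂ).restrict T.Q ≪ kap T := by
  refine Measure.AbsolutelyContinuous.mk fun s hs h => ?_
  have h1 : ∀ᵐ p ∂(kap T), p ∉ s := by rw [ae_iff]; simpa using h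
  have h2 := ae_volume_of_kap T h1
  rw [← ae_restrict_iff' T.isOpen.measurableSet, ae_iff] at h2
  simpa using h2

/-- from phase space to the plane -/
lemma ae_pairs {P : (ℂ × ℂ) × (ℂ × ℂ) → Prop} (h : ∀ᵐ z ∂(T.mu.prod T.mu), P z) :
    ∀ᵐ z ∂(((volume : Measure ℂ).prod nu).prod ((volume : Measure ℂ).prod nu)),
      (z.1.1 ∈ T.Q ∧ z.2.1 ∈ T.Q) → P z := by
  have := isProb_kap T
  have := WF.isProb_nu
  have h1 : ((volume : Measure ℂ).restrict T.Q).prod nu =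
      ((volume : Measure ℂ).prod nu).restrict (T.Q ×ˢ univ) := by
    rw [← Measure.prod_restrict, Measure.restrict_univ]
  have h2 : ((volume : Measure ℂ).prod nu).restrict (T.Q ×ˢ univ) ≪ T.mu := by
    rw [← h1]
    exact (restrict_ac T).prod Measure.AbsolutelyContinuous.rfl
  have h3 : ∀ᵐ z ∂((((volume : Measure ℂ).prod nu).restrict (T.Q ×ˢ univ)).prod
      (((volume : Measure ℂ).prod nu).restrict (T.Q ×ˢ univ))), P z := (h2.prod h2).ae_le h
  rw [Measure.prod_restrict] at h3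
  have hm : MeasurableSet ((T.Q ×ˢ (univ : Set ℂ)) ×ˢ (T.Q ×ˢ (univ : Set ℂ))) :=
    (T.isOpen.measurableSet.prod MeasurableSet.univ).prod
      (T.isOpen.measurableSet.prod MeasurableSet.univ)
  rw [ae_restrict_iff' hm] at h3
  filter_upwards [h3] with z hz hz'
  exact hz ⟨⟨hz'.1, trivial⟩, ⟨hz'.2, trivial⟩⟩

/-- the law of a position and two directions -/
noncomputable abbrev lam : Measure (ℂ × (ℂ × ℂ)) := (kap T).prod (nu.prod nu)

lemma ae_shift {P : (ℂ × ℂ) × (ℂ × ℂ) → Prop} (hPm : MeasurableSet {z | P z})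
    (h : ∀ᵐ z ∂(T.mu.prod T.mu), P z) :
    ∀ᵐ ω ∂(lam T), ∀ᵐ s ∂(volume : Measure (ℝ × ℝ)),
      (ω.1 + s.1 • ω.2.1 ∈ T.Q ∧ ω.1 + s.2 • ω.2.2 ∈ T.Q) →
        P ((ω.1 + s.1 • ω.2.1, ω.2.1), (ω.1 + s.2 • ω.2.2, ω.2.2)) := by
  have := isProb_kap T
  have := WF.isProb_nu
  set P' : (ℂ × ℂ) × (ℂ × ℂ) → Prop := fun z => (z.1.1 ∈ T.Q ∧ z.2.1 ∈ T.Q) → P z with hP'
  have hP'm : MeasurableSet {z | P' z} := by
    have hQ := T.isOpen.measurableSet
    have e : {z | P' z} = {z : (ℂ × ℂ) × (ℂ × ℂ) | z.1.1 ∈ T.Q ∧ z.2.1 ∈ T.Q}ᶜ ∪ {z | P z} := by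
      ext z
      simp only [hP', mem_setOf_eq, mem_union, mem_compl_iff]
      tauto
    rw [e]
    exact (((measurable_fst.comp measurable_fst) hQ).inter
      ((measurable_fst.comp measurable_snd) hQ)).compl.union hPm
  have h1 : ∀ᵐ w ∂((volume : Measure ℂ).prod ((volume : Measure (ℝ × ℝ)).prod (nu.prod nu))),
      P' (WF.fl w) := WF.fl_quasi.ae (ae_pairs T h)
  have h2 : ∀ᵐ p ∂(volume : Measure ℂ), ∀ᵐ uv ∂(nu.prod nu), ∀ᵐ s ∂(volume : Measure (ℝ × ℝ)),
      P' (WF.fl (p, s, uv)) := by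
    filter_upwards [Measure.ae_ae_of_ae_prod h1] with p hp
    have hm : MeasurableSet {x : (ℝ × ℝ) × (ℂ × ℂ) | P' (WF.fl (p, x.1, x.2))} := by
      have : Measurable fun x : (ℝ × ℝ) × (ℂ × ℂ) => WF.fl (p, x.1, x.2) :=
        WF.measurable_fl.comp (by fun_prop)
      exact this hP'm
    exact (Measure.ae_ae_comm (p := fun (s : ℝ × ℝ) (uv : ℂ × ℂ) => P' (WF.fl (p, s, uv)))
      hm).1 (Measure.ae_ae_of_ae_prod hp)
  have hm : MeasurableSet {ω : ℂ × (ℂ × ℂ) | ∀ᵐ s ∂(volume : Measure (ℝ × ℝ)),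
      P' (WF.fl (ω.1, s, ω.2))} := by
    have hm' : Measurable fun x : (ℂ × (ℂ × ℂ)) × (ℝ × ℝ) => WF.fl (x.1.1, x.2, x.1.2) :=
      WF.measurable_fl.comp (by fun_prop)
    have e : {ω : ℂ × (ℂ × ℂ) | ∀ᵐ s ∂(volume : Measure (ℝ × ℝ)), P' (WF.fl (ω.1, s, ω.2))} =
        {ω | (volume : Measure (ℝ × ℝ)) (Prod.mk ω ⁻¹'
          ((fun x : (ℂ × (ℂ × ℂ)) × (ℝ × ℝ) => WF.fl (x.1.1, x.2, x.1.2)) ⁻¹'
            {z | P' z}ᶜ)) = 0} := rfl
    rw [e]
    exact measurable_measure_prodMk_left (hm' hP'm.compl) (measurableSet_singleton 0)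
  have h3 : ∀ᵐ ω ∂((volume : Measure ℂ).prod (nu.prod nu)), ∀ᵐ s ∂(volume : Measure (ℝ × ℝ)),
      P' (WF.fl (ω.1, s, ω.2)) := (Measure.ae_prod_iff_ae_ae hm).2 h2
  have h4 : lam T ≪ (volume : Measure ℂ).prod (nu.prod nu) :=
    ProbabilityTheory.cond_absolutelyContinuous.prod Measure.AbsolutelyContinuous.rfl
  exact h4.ae_le h3

/-- distance to the walls -/
noncomputable def dw (ω : ℂ × (ℂ × ℂ)) : ℝ := Metric.infDist ω.1 T.Qᶜ

lemma dw_pos : ∀ᵐ ω ∂(lam T), 0 < dw T ω := by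
  have := isProb_kap T
  have := WF.isProb_nu
  have h1 : ∀ᵐ p ∂(kap T), p ∈ T.Q := ProbabilityTheory.ae_cond_mem T.isOpen.measurableSet
  have h2 : ∀ᵐ ω ∂(lam T), ω.1 ∈ T.Q := Measure.quasiMeasurePreserving_fst.ae h1
  have hne : (T.Qᶜ).Nonempty := by
    rw [nonempty_compl]
    intro h
    have := T.isBounded
    rw [h] at this
    exact NoncompactSpace.noncompact_univ (X := ℂ)
      (Metric.isCompact_of_isClosed_isBounded isClosed_univ this)
  filter_upwards [h2] with ω hω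
  unfold dw
  rw [← T.isOpen.isClosed_compl.notMem_iff_infDist_pos hne]
  exact fun h => h hω

/-- free flight for short times -/
lemma free_ae {Θ : ℝ → ℂ × ℂ → ℂ × ℂ} (hb : T.IsBilliardFlow Θ) :
    ∀ᵐ z ∂T.mu, ∀ s : ℝ, 0 ≤ s → s < Metric.infDist z.1 T.Qᶜ →
      Θ s z = (z.1 + s • z.2, z.2) ∧ z.1 + s • z.2 ∈ T.Q := by
  have := isProb_kap T
  have := WF.isProb_nu
  have h1 : ∀ᵐ z ∂T.mu, ‖z.2‖ = 1 :=
    Measure.quasiMeasurePreserving_snd.ae WF.ae_norm_nu
  filter_upwards [hb, h1] with z h2 h3 s hs hs'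
  have hz : z.1 ∈ inner T s := hs'
  exact ⟨rowC1 T (p := z.1) (θ := z.2) hz h3 h2.1 h2.2 ⟨hs, le_rfl⟩,
    rowC1_mem T hz h3 ⟨hs, le_rfl⟩⟩

lemma fst_mp : MeasurePreserving (fun ω : ℂ × (ℂ × ℂ) => (ω.1, ω.2.1)) (lam T) T.mu := by
  have := isProb_kap T
  have := WF.isProb_nu
  exact (MeasurePreserving.id (kap T)).prod (measurePreserving_fst (μ := nu) (ν := nu))

lemma snd_mp : MeasurePreserving (fun ω : ℂ × (ℂ × ℂ) => (ω.1, ω.2.2)) (lam T) T.mu := by
  have := isProb_kap T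
  have := WF.isProb_nu
  exact (MeasurePreserving.id (kap T)).prod (measurePreserving_snd (μ := nu) (ν := nu))

/-- **Two particles from one point.** -/
theorem front_pair (hT : T.IsIrrational) {Θ : ℝ → ℂ × ℂ → ℂ × ℂ} (hΘ : PFlow T.mu Θ)
    (hb : T.IsBilliardFlow Θ) {τ : ℝ} (hτ : τ ≠ 0) {f g : ℂ × ℂ → ℝ} (hf : Measurable f)
    (hg : Measurable g) (hfb : ∀ z, |f z| ≤ 1) (hgb : ∀ z, |g z| ≤ 1)
    (hfc : Tendsto (fun s => ∫ z, |f (Θ s z) - f z| ∂T.mu) (𝓝[>] 0) (𝓝 0))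
    (hgc : Tendsto (fun s => ∫ z, |g (Θ s z) - g z| ∂T.mu) (𝓝[>] 0) (𝓝 0)) :
    ∀ᵐ ω ∂(lam T), Tendsto (fun n : ℕ => (n : ℝ)⁻¹ * ∑ k ∈ Finset.range n,
      f ((Θ τ)^[k] (ω.1, ω.2.1)) * g ((Θ τ)^[k] (ω.1, ω.2.2))) atTop
      (𝓝 ((∫ z, f z ∂T.mu) * ∫ z, g z ∂T.mu)) := by
  have := isProb_kap T
  have := isProb_mu T
  have := WF.isProb_nu
  have hmaps := table_maps T hT hb hτ
  have h1 : Ergodic (Θ τ) T.mu :=
    H184Abs.ergodic_of_zero_one (hΘ.mp τ) fun A hA => hmaps.1 A hA.1 hA.2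
  have h2 : Ergodic (fun z : (ℂ × ℂ) × (ℂ × ℂ) => (Θ τ z.1, Θ τ z.2)) (T.mu.prod T.mu) :=
    H184Abs.ergodic_of_zero_one ((hΘ.mp τ).prod (hΘ.mp τ)) fun A hA => hmaps.2.1 A hA.1 hA.2
  refine pair_generic hΘ h1 h2 (m := lam T) (x := fun ω => (ω.1, ω.2.1))
    (y := fun ω => (ω.1, ω.2.2)) (d := dw T)
    (fun P hP => (fst_mp T).quasiMeasurePreserving.ae hP)
    (fun P hP => (snd_mp T).quasiMeasurePreserving.ae hP) (dw_pos T) ?_ hf hg hfb hgb hfc hgc
  intro P hPm hP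
  filter_upwards [ae_shift T hPm hP, (fst_mp T).quasiMeasurePreserving.ae (free_ae T hb),
    (snd_mp T).quasiMeasurePreserving.ae (free_ae T hb)] with ω k1 k2 k3
  filter_upwards [k1] with s hs hs1 hs2
  obtain ⟨a1, a2⟩ := k2 s.1 hs1.1.le hs1.2
  obtain ⟨b1, b2⟩ := k3 s.2 hs2.1.le hs2.2
  rw [a1, b1]
  exact hs ⟨a2, b2⟩

/-- **The wave front of almost every point**, one test function. -/
theorem front_fun (hT : T.IsIrrational) {Θ : ℝ → ℂ × ℂ → ℂ × ℂ} (hΘ : PFlow T.mu Θ)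
    (hb : T.IsBilliardFlow Θ) {τ : ℝ} (hτ : τ ≠ 0) {f : ℂ × ℂ → ℝ} (hf : Measurable f)
    (hfb : ∀ z, |f z| ≤ 1)
    (hfc : Tendsto (fun s => ∫ z, |f (Θ s z) - f z| ∂T.mu) (𝓝[>] 0) (𝓝 0)) :
    ∀ᵐ p ∂(kap T), ∀ G : Set ℂ, MeasurableSet G →
      Tendsto (fun n : ℕ => (n : ℝ)⁻¹ * ∑ k ∈ Finset.range n,
        |∫ u in G, f ((Θ τ)^[k] (p, u)) ∂nu - nu.real G * ∫ z, f z ∂T.mu|) atTop (𝓝 0) := by
  have := isProb_kap T
  have := isProb_mu T
  have := WF.isProb_nu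
  have hmaps := table_maps T hT hb hτ
  have h1 : Ergodic (Θ τ) T.mu :=
    H184Abs.ergodic_of_zero_one (hΘ.mp τ) fun A hA => hmaps.1 A hA.1 hA.2
  have hS : Measurable (Θ τ) := (hΘ.mp τ).measurable
  have h2 := Measure.ae_ae_of_ae_prod (front_pair T hT hΘ hb hτ hf hf hfb hfb hfc hfc)
  have h3 : ∀ᵐ z ∂T.mu, Tendsto (fun n : ℕ => (n : ℝ)⁻¹ * ∑ k ∈ Finset.range n,
      f ((Θ τ)^[k] z)) atTop (𝓝 (∫ z, f z ∂T.mu)) := birkhoff_ergodic h1 hf hfb
  have h4 := Measure.ae_ae_of_ae_prod h3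
  filter_upwards [h2, h4] with p k2 k4 G hG
  exact cesaro_of_pairs (W := fun k u => f ((Θ τ)^[k] (p, u)))
    (fun k => hf.comp ((hS.iterate k).comp (measurable_const.prodMk measurable_id)))
    (fun k u => hfb _) k4 k2 hG

/-- for any version of the billiard flow, along almost every orbit the times `k τ` are given by
the iterates of the time-`τ` map of the good version -/
lemma iterates_ae {Θ Φ : ℝ → ℂ × ℂ → ℂ × ℂ} (hΘ : PFlow T.mu Θ)
    (hu : ∀ t, ∀ᵐ p ∂T.mu, Φ t p = Θ t p) (τ : ℝ) :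
    ∀ᵐ z ∂T.mu, ∀ k : ℕ, Φ (k * τ) z = (Θ τ)^[k] z := by
  have hF : H184Abs.Flow T.mu Θ := ⟨hΘ.meas, hΘ.mp, hΘ.add, hΘ.zero⟩
  rw [ae_all_iff]
  intro k
  filter_upwards [hu (k * τ), H184Abs.iterate_ae hF τ k] with z h1 h2
  rw [h1, h2]

/-- `L¹` continuity for indicator functions -/
lemma indicator_cont {Θ : ℝ → ℂ × ℂ → ℂ × ℂ} (hΘ : PFlow T.mu Θ) (hb : T.IsBilliardFlow Θ)
    {A : Set (ℂ × ℂ)} (hA : MeasurableSet A) :
    Tendsto (fun s => ∫ z, |A.indicator (fun _ => (1 : ℝ)) (Θ s z) -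
      A.indicator (fun _ => (1 : ℝ)) z| ∂T.mu) (𝓝[>] 0) (𝓝 0) := by
  have := isProb_mu T
  have e : ∀ s : ℝ, ∫ z, |A.indicator (fun _ => (1 : ℝ)) (Θ s z) -
      A.indicator (fun _ => (1 : ℝ)) z| ∂T.mu = T.mu.real (symmDiff A (Θ s ⁻¹' A)) := by
    intro s
    have hm : MeasurableSet (symmDiff A (Θ s ⁻¹' A)) :=
      hA.symmDiff ((hΘ.mp s).measurable hA)
    rw [← integral_indicator_one hm]
    refine integral_congr_ae (ae_of_all _ fun z => ?_)
    by_cases h1 : z ∈ A <;> by_cases h2 : Θ s z ∈ A <;>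
      simp [indicator, mem_symmDiff, h1, h2]
  simp only [e]
  rw [Metric.tendsto_nhds]
  intro ε hε
  obtain ⟨δ, hδ, h⟩ := rowC2 T hΘ hb hA (ε := ε / 2) (by positivity)
  have h3 : Ioo (0 : ℝ) δ ∈ 𝓝[>] (0 : ℝ) := Ioo_mem_nhdsGT hδ
  filter_upwards [h3] with s hs
  have h4 := h s (by rw [abs_of_pos hs.1]; exact hs.2.le)
  rw [Real.dist_eq, sub_zero, abs_of_nonneg measureReal_nonneg]
  linarith

/-- `L¹` continuity for bounded continuous functions -/
lemma continuous_cont {Θ : ℝ → ℂ × ℂ → ℂ × ℂ} (hΘ : PFlow T.mu Θ) (hb : T.IsBilliardFlow Θ)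
    {f : ℂ × ℂ → ℝ} (hf : Continuous f) (hfb : ∀ z, |f z| ≤ 1) :
    Tendsto (fun s => ∫ z, |f (Θ s z) - f z| ∂T.mu) (𝓝[>] 0) (𝓝 0) := by
  have := isProb_mu T
  have h1 : Tendsto (fun s => ∫ z, |f (Θ s z) - f z| ∂T.mu) (𝓝[>] 0) (𝓝 (∫ _z, (0 : ℝ) ∂T.mu)) := by
    refine tendsto_integral_filter_of_dominated_convergence (fun _ => 2)
      (Eventually.of_forall fun s => ?_) (Eventually.of_forall fun s => ae_of_all _ fun z => ?_)
      (integrable_const _) ?_
    · exact ((hf.measurable.comp (hΘ.mp s).measurable).sub hf.measurable).norm.aestronglyMeasurable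
    · rw [Real.norm_eq_abs, abs_abs]
      refine (abs_sub _ _).trans ?_
      linarith [hfb (Θ s z), hfb z]
    · filter_upwards [flow_cont T hb] with z hz
      have h2 : Tendsto (fun s => Θ s z) (𝓝[>] 0) (𝓝 z) := hz.mono_left nhdsWithin_le_nhds
      have h3 : Tendsto (fun s => |f (Θ s z) - f z|) (𝓝[>] 0) (𝓝 |f z - f z|) :=
        (((hf.tendsto z).comp h2).sub_const _).abs
      simpa using h3
  simpa using h1

/-- **(P1)** sets: for almost every point `p` and all sets `G` of directions. -/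
theorem front_set (hT : T.IsIrrational) {Φ : ℝ → ℂ × ℂ → ℂ × ℂ} (hΦ : T.IsBilliardFlow Φ)
    {τ : ℝ} (hτ : τ ≠ 0) {A : Set (ℂ × ℂ)} (hA : MeasurableSet A) :
    ∀ᵐ p ∂(kap T), ∀ G : Set ℂ, MeasurableSet G →
      Tendsto (fun n : ℕ => (n : ℝ)⁻¹ * ∑ k ∈ Finset.range n,
        |nu.real {u | u ∈ G ∧ Φ (k * τ) (p, u) ∈ A} - nu.real G * T.mu.real A|) atTop (𝓝 0) := by
  have := isProb_kap T
  have := isProb_mu T
  have := WF.isProb_nu
  obtain ⟨Θ, hΘ, hb, hu⟩ := exists_good_table_flow T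
  have hS : Measurable (Θ τ) := (hΘ.mp τ).measurable
  have h1 := front_fun T hT hΘ hb hτ (f := A.indicator (fun _ => (1 : ℝ)))
    (measurable_const.indicator hA) (fun z => by
      by_cases h : z ∈ A <;> simp [h]) (indicator_cont T hΘ hb hA)
  have h2 := Measure.ae_ae_of_ae_prod (iterates_ae T hΘ (hu Φ hΦ) τ)
  filter_upwards [h1, h2] with p k1 k2 G hG
  refine (k1 G hG).congr fun n => ?_
  congr 1
  refine Finset.sum_congr rfl fun k _ => ?_
  have e1 : ∫ z, A.indicator (fun _ => (1 : ℝ)) z ∂T.mu = T.mu.real A := by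
    rw [integral_indicator hA]; simp
  have hm : MeasurableSet {u : ℂ | (Θ τ)^[k] (p, u) ∈ A} :=
    ((hS.iterate k).comp (measurable_const.prodMk measurable_id)) hA
  have e2 : ∫ u in G, A.indicator (fun _ => (1 : ℝ)) ((Θ τ)^[k] (p, u)) ∂nu =
      nu.real {u | u ∈ G ∧ Φ (k * τ) (p, u) ∈ A} := by
    have e3 : nu.real {u | u ∈ G ∧ Φ (k * τ) (p, u) ∈ A} =
        nu.real ({u : ℂ | (Θ τ)^[k] (p, u) ∈ A} ∩ G) := by
      apply measureReal_congr
      filter_upwards [k2] with u hu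
      apply propext
      show (u ∈ G ∧ Φ (k * τ) (p, u) ∈ A) ↔ ((Θ τ)^[k] (p, u) ∈ A ∧ u ∈ G)
      rw [hu k]
      exact and_comm
    rw [e3]
    have e4 : (fun u => A.indicator (fun _ => (1 : ℝ)) ((Θ τ)^[k] (p, u))) =
        {u : ℂ | (Θ τ)^[k] (p, u) ∈ A}.indicator (fun _ => (1 : ℝ)) := by
      funext u
      rfl
    rw [e4, integral_indicator hm, measureReal_def, ← Measure.restrict_apply hm]
    simp [measureReal_def]
  rw [e1, e2]

/-- the closed phase space -/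
def KK : Set (ℂ × ℂ) := closure T.Q ×ˢ Metric.sphere 0 1

lemma isCompact_KK : IsCompact (KK T) :=
  T.isBounded.isCompact_closure.prod (isCompact_sphere 0 1)

lemma ae_KK : ∀ᵐ z ∂T.mu, z ∈ KK T := by
  have := isProb_kap T
  have := WF.isProb_nu
  have h1 : ∀ᵐ p ∂(kap T), p ∈ T.Q := ProbabilityTheory.ae_cond_mem T.isOpen.measurableSet
  have h2 : ∀ᵐ z ∂T.mu, z.1 ∈ T.Q := Measure.quasiMeasurePreserving_fst.ae h1
  have h3 : ∀ᵐ z ∂T.mu, ‖z.2‖ = 1 := Measure.quasiMeasurePreserving_snd.ae WF.ae_norm_nu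
  filter_upwards [h2, h3] with z k2 k3
  exact ⟨subset_closure k2, by simpa using k3⟩

/-- truncation of a continuous function -/
noncomputable def cut (h : ℂ × ℂ → ℝ) (M : ℕ) (z : ℂ × ℂ) : ℝ :=
  max (-1) (min 1 (h z / ((M : ℝ) + 1)))

lemma cut_abs (h : ℂ × ℂ → ℝ) (M : ℕ) (z : ℂ × ℂ) : |cut h M z| ≤ 1 := by
  unfold cut
  rw [abs_le]
  exact ⟨le_max_left _ _, max_le (by norm_num) (min_le_left _ _)⟩

lemma cut_cont {h : ℂ × ℂ → ℝ} (hh : Continuous h) (M : ℕ) : Continuous (cut h M) := by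
  unfold cut
  fun_prop

lemma cut_eq {h : ℂ × ℂ → ℝ} {M : ℕ} {z : ℂ × ℂ} (hz : |h z| ≤ (M : ℝ) + 1) :
    cut h M z = h z / ((M : ℝ) + 1) := by
  have hM : (0 : ℝ) < (M : ℝ) + 1 := by positivity
  have h1 := abs_le.1 hz
  unfold cut
  have h2 : h z / ((M : ℝ) + 1) ≤ 1 := (div_le_one hM).2 h1.2
  have h3 : -1 ≤ h z / ((M : ℝ) + 1) := by
    rw [le_div_iff₀ hM]; linarith [h1.1]
  rw [min_eq_right h2, max_eq_right h3]

/-- **(P2)** almost every point `p`, all sets `G` of directions, all continuous `g`. -/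
theorem front_all (hT : T.IsIrrational) {Φ : ℝ → ℂ × ℂ → ℂ × ℂ} (hΦ : T.IsBilliardFlow Φ)
    {τ : ℝ} (hτ : τ ≠ 0) :
    ∀ᵐ p ∂(kap T), ∀ G : Set ℂ, MeasurableSet G → ∀ g : ℂ × ℂ → ℝ, Continuous g →
      Tendsto (fun n : ℕ => (n : ℝ)⁻¹ * ∑ k ∈ Finset.range n,
        |∫ u in G, g (Φ (k * τ) (p, u)) ∂nu - nu.real G * ∫ z, g z ∂T.mu|) atTop (𝓝 0) := by
  have := isProb_kap T
  have := isProb_mu T
  have := WF.isProb_nu
  obtain ⟨Θ, hΘ, hb, hu⟩ := exists_good_table_flow T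
  have hS : Measurable (Θ τ) := (hΘ.mp τ).measurable
  set D : ℕ → C(ℂ × ℂ, ℝ) := TopologicalSpace.denseSeq C(ℂ × ℂ, ℝ) with hD
  have h1 : ∀ᵐ p ∂(kap T), ∀ j M : ℕ, ∀ G : Set ℂ, MeasurableSet G →
      Tendsto (fun n : ℕ => (n : ℝ)⁻¹ * ∑ k ∈ Finset.range n,
        |∫ u in G, cut (D j) M ((Θ τ)^[k] (p, u)) ∂nu - nu.real G * ∫ z, cut (D j) M z ∂T.mu|)
        atTop (𝓝 0) := by
    rw [ae_all_iff]
    intro j
    rw [ae_all_iff]
    intro M
    exact front_fun T hT hΘ hb hτ (cut_cont (D j).continuous M).measurable (cut_abs _ _)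
      (continuous_cont T hΘ hb (cut_cont (D j).continuous M) (cut_abs _ _))
  have h2 := Measure.ae_ae_of_ae_prod (iterates_ae T hΘ (hu Φ hΦ) τ)
  have h3 : ∀ᵐ z ∂T.mu, ∀ k : ℕ, (Θ τ)^[k] z ∈ KK T := by
    rw [ae_all_iff]
    intro k
    exact ((hΘ.mp τ).iterate k).quasiMeasurePreserving.ae (ae_KK T)
  have h4 := Measure.ae_ae_of_ae_prod h3
  filter_upwards [h1, h2, h4] with p k1 k2 k4 G hG g hg
  -- a bound for `g` on the phase space
  obtain ⟨M, hM⟩ : ∃ M : ℕ, ∀ z ∈ KK T, |g z| ≤ (M : ℝ) := by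
    obtain ⟨C, hC⟩ := (isCompact_KK T).exists_bound_of_continuousOn hg.continuousOn
    obtain ⟨M, hM⟩ := exists_nat_ge C
    exact ⟨M, fun z hz => (hC z hz).trans hM⟩
  have e0 : ∀ k : ℕ, ∫ u in G, g (Φ (k * τ) (p, u)) ∂nu = ∫ u in G, g ((Θ τ)^[k] (p, u)) ∂nu := by
    intro k
    refine integral_congr_ae (ae_restrict_of_ae ?_)
    filter_upwards [k2] with u hu
    simp only [hu k]
  simp only [e0]
  rw [Metric.tendsto_atTop]
  intro ε hε
  set η : ℝ := min 1 (ε / 4) with hη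
  have hη0 : 0 < η := lt_min one_pos (by positivity)
  -- approximation
  obtain ⟨j, hj⟩ : ∃ j : ℕ, ∀ z ∈ KK T, |D j z - g z| < η := by
    set gC : C(ℂ × ℂ, ℝ) := ⟨g, hg⟩ with hgC
    have hop : IsOpen {h : C(ℂ × ℂ, ℝ) | MapsTo (h - gC) (KK T) (Metric.ball 0 η)} :=
      (ContinuousMap.isOpen_setOf_mapsTo (isCompact_KK T) Metric.isOpen_ball).preimage
        (continuous_id.sub continuous_const)
    have hne : ({h : C(ℂ × ℂ, ℝ) | MapsTo (h - gC) (KK T) (Metric.ball 0 η)}).Nonempty := by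
      refine ⟨gC, fun z _ => ?_⟩
      simp [hη0]
    obtain ⟨x, hx, j, hj⟩ := (TopologicalSpace.denseRange_denseSeq C(ℂ × ℂ, ℝ)).inter_open_nonempty
      _ hop hne
    refine ⟨j, fun z hz => ?_⟩
    have h5 := hx hz
    rw [← hj] at h5
    simpa [hD, hgC] using h5
  have hDM : ∀ z ∈ KK T, |D j z| ≤ (M : ℝ) + 1 := by
    intro z hz
    have h5 := hj z hz
    have h6 := hM z hz
    have h7 : |D j z| ≤ |D j z - g z| + |g z| := by
      have := abs_add_le (D j z - g z) (g z)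
      simpa using this
    have h8 : η ≤ 1 := min_le_left _ _
    linarith
  have hM1 : (0 : ℝ) < (M : ℝ) + 1 := by positivity
  have hlim := (k1 j M G hG).const_mul ((M : ℝ) + 1)
  rw [mul_zero] at hlim
  obtain ⟨n0, hn0⟩ := (Metric.tendsto_atTop.1 hlim) (ε / 4) (by positivity)
  have hgi : ∀ k : ℕ, Integrable (fun u => g ((Θ τ)^[k] (p, u))) (nu.restrict G) := by
    intro k
    refine Integrable.of_bound (C := (M : ℝ)) ?_ (ae_restrict_of_ae ?_)
    · exact (hg.measurable.comp ((hS.iterate k).comp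
        (measurable_const.prodMk measurable_id))).aestronglyMeasurable
    · filter_upwards [k4] with u hu
      exact hM _ (hu k)
  have hci : ∀ k : ℕ, Integrable (fun u => cut (D j) M ((Θ τ)^[k] (p, u))) (nu.restrict G) := by
    intro k
    refine Integrable.of_bound (C := 1) ?_ (ae_of_all _ fun u => cut_abs _ _ _)
    exact ((cut_cont (D j).continuous M).measurable.comp ((hS.iterate k).comp
        (measurable_const.prodMk measurable_id))).aestronglyMeasurable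
  have hGle : nu.real G ≤ 1 := measureReal_le_one
  -- the two approximations
  have a1 : ∀ k : ℕ, |∫ u in G, g ((Θ τ)^[k] (p, u)) ∂nu -
      ((M : ℝ) + 1) * ∫ u in G, cut (D j) M ((Θ τ)^[k] (p, u)) ∂nu| ≤ η := by
    intro k
    rw [← integral_const_mul, ← integral_sub (hgi k) ((hci k).const_mul _), ← Real.norm_eq_abs]
    refine (norm_integral_le_of_norm_le_const (C := η) ?_).trans ?_
    · refine ae_restrict_of_ae ?_
      filter_upwards [k4] with u hu
      rw [cut_eq (hDM _ (hu k)), mul_div_cancel₀ _ hM1.ne', Real.norm_eq_abs, abs_sub_comm]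
      exact (hj _ (hu k)).le
    · have : (nu.restrict G).real univ ≤ 1 := by
        rw [measureReal_def, Measure.restrict_apply_univ]
        exact hGle
      nlinarith [hη0]
  have a2 : |∫ z, g z ∂T.mu - ((M : ℝ) + 1) * ∫ z, cut (D j) M z ∂T.mu| ≤ η := by
    have hgi' : Integrable g T.mu := by
      refine Integrable.of_bound (C := (M : ℝ)) hg.measurable.aestronglyMeasurable ?_
      filter_upwards [ae_KK T] with z hz
      exact hM _ hz
    have hci' : Integrable (cut (D j) M) T.mu :=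
      Integrable.of_bound (cut_cont (D j).continuous M).measurable.aestronglyMeasurable 1
        (ae_of_all _ fun u => cut_abs _ _ _)
    rw [← integral_const_mul, ← integral_sub hgi' (hci'.const_mul _), ← Real.norm_eq_abs]
    refine (norm_integral_le_of_norm_le_const (C := η) ?_).trans ?_
    · filter_upwards [ae_KK T] with z hz
      rw [cut_eq (hDM _ hz), mul_div_cancel₀ _ hM1.ne', Real.norm_eq_abs, abs_sub_comm]
      exact (hj _ hz).le
    · simp
  refine ⟨max 1 n0, fun n hn => ?_⟩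
  have hn1 : 1 ≤ n := (le_max_left _ _).trans hn
  have hn2 := hn0 n ((le_max_right _ _).trans hn)
  have hnpos : (0 : ℝ) < n := by exact_mod_cast hn1
  rw [Real.dist_eq, sub_zero] at hn2 ⊢
  rw [abs_of_nonneg (mul_nonneg hM1.le (mul_nonneg (by positivity)
    (Finset.sum_nonneg fun k _ => abs_nonneg _)))] at hn2
  rw [abs_of_nonneg (mul_nonneg (by positivity) (Finset.sum_nonneg fun k _ => abs_nonneg _))]
  have key : ∀ k : ℕ, |∫ u in G, g ((Θ τ)^[k] (p, u)) ∂nu - nu.real G * ∫ z, g z ∂T.mu| ≤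
      ((M : ℝ) + 1) * |∫ u in G, cut (D j) M ((Θ τ)^[k] (p, u)) ∂nu -
        nu.real G * ∫ z, cut (D j) M z ∂T.mu| + 2 * η := by
    intro k
    have b1 := a1 k
    set x := ∫ u in G, g ((Θ τ)^[k] (p, u)) ∂nu
    set y := ∫ u in G, cut (D j) M ((Θ τ)^[k] (p, u)) ∂nu
    set X := ∫ z, g z ∂T.mu
    set Y := ∫ z, cut (D j) M z ∂T.mu
    have hG0 : 0 ≤ nu.real G := measureReal_nonneg
    have c1 : x - nu.real G * X = (x - ((M : ℝ) + 1) * y) + ((M : ℝ) + 1) * (y - nu.real G * Y) +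
        (-(nu.real G * (X - ((M : ℝ) + 1) * Y))) := by ring
    rw [c1]
    refine (abs_add_three _ _ _).trans ?_
    rw [abs_mul, abs_of_pos hM1, abs_neg, abs_mul, abs_of_nonneg hG0]
    have c2 : nu.real G * |X - ((M : ℝ) + 1) * Y| ≤ 1 * η :=
      mul_le_mul hGle a2 (abs_nonneg _) zero_le_one
    linarith
  calc (n : ℝ)⁻¹ * ∑ k ∈ Finset.range n,
        |∫ u in G, g ((Θ τ)^[k] (p, u)) ∂nu - nu.real G * ∫ z, g z ∂T.mu|
      ≤ (n : ℝ)⁻¹ * ∑ k ∈ Finset.range n, (((M : ℝ) + 1) *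
        |∫ u in G, cut (D j) M ((Θ τ)^[k] (p, u)) ∂nu -
          nu.real G * ∫ z, cut (D j) M z ∂T.mu| + 2 * η) :=
        mul_le_mul_of_nonneg_left (Finset.sum_le_sum fun k _ => key k) (by positivity)
    _ = ((M : ℝ) + 1) * ((n : ℝ)⁻¹ * ∑ k ∈ Finset.range n,
        |∫ u in G, cut (D j) M ((Θ τ)^[k] (p, u)) ∂nu -
          nu.real G * ∫ z, cut (D j) M z ∂T.mu|) + 2 * η := by
        rw [Finset.sum_add_distrib, ← Finset.mul_sum, Finset.sum_const, Finset.card_range,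
          nsmul_eq_mul]
        field_simp
    _ < ε := by
        have : η ≤ ε / 4 := min_le_right _ _
        linarith

end geom

end Vale.Agent.P099.H717
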