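import Vale.Agent.P099.R2.H717.Front
import Mathlib.Topology.ContinuousMap.StoneWeierstrass

/-! # P099: two orbits from one point are jointly equidistributed. -/

set_option linter.all false

namespace Vale.Agent.P099.H717

open MeasureTheory Set Filter Topology Vale.Agent.P099 Vale.Agent.P099T Vale.Agent.P099.H366

/-- averages along a sequence -/
noncomputable def sav (x : ℕ → ℝ) (n : ℕ) : ℝ := (n : ℝ)⁻¹ * ∑ k ∈ Finset.range n, x k

lemma sav_add (x y : ℕ → ℝ) (n : ℕ) : sav (fun k => x k + y k) n = sav x n + sav y n := by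
  unfold sav
  rw [Finset.sum_add_distrib, mul_add]

lemma sav_smul (c : ℝ) (x : ℕ → ℝ) (n : ℕ) : sav (fun k => c * x k) n = c * sav x n := by
  unfold sav
  rw [← Finset.mul_sum]; ring

lemma sav_close {x y : ℕ → ℝ} {η : ℝ} (h : ∀ k, |x k - y k| ≤ η) (hη : 0 ≤ η) (n : ℕ) :
    |sav x n - sav y n| ≤ η := by
  unfold sav
  rw [← mul_sub, ← Finset.sum_sub_distrib, abs_mul, abs_inv, Nat.abs_cast]
  rcases Nat.eq_zero_or_pos n with rfl | hn
  · simpa using hη
  · have hn1 : (0 : ℝ) < n := by exact_mod_cast hn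
    rw [inv_mul_le_iff₀ hn1]
    calc |∑ k ∈ Finset.range n, (x k - y k)| ≤ ∑ k ∈ Finset.range n, |x k - y k| :=
          Finset.abs_sum_le_sum_abs _ _
      _ ≤ ∑ k ∈ Finset.range n, η := Finset.sum_le_sum fun k _ => h k
      _ = n * η := by simp

/-- a limit statement that passes to uniform limits -/
lemma tendsto_of_close {a : ℕ → ℝ} {l : ℝ}
    (h : ∀ η : ℝ, 0 < η → ∃ (b : ℕ → ℝ) (m : ℝ), Tendsto b atTop (𝓝 m) ∧
      (∀ n, |a n - b n| ≤ η) ∧ |l - m| ≤ η) : Tendsto a atTop (𝓝 l) := by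
  rw [Metric.tendsto_atTop]
  intro ε hε
  obtain ⟨b, m, hb, h1, h2⟩ := h (ε / 4) (by positivity)
  obtain ⟨n0, hn0⟩ := (Metric.tendsto_atTop.1 hb) (ε / 4) (by positivity)
  refine ⟨n0, fun n hn => ?_⟩
  have h3 := hn0 n hn
  rw [Real.dist_eq] at h3 ⊢
  have h4 := h1 n
  have e : a n - l = (a n - b n) + (b n - m) + (-(l - m)) := by ring
  rw [e]
  refine (abs_add_three _ _ _).trans_lt ?_
  rw [abs_neg]
  linarith

section det

variable {K : Set (ℂ × ℂ)} (hK : IsCompact K) {μ : Measure (ℂ × ℂ)} [IsProbabilityMeasure μ]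
  (hμ : ∀ᵐ z ∂μ, z ∈ K)

include hK hμ

lemma integral_close {g h : ℂ × ℂ → ℝ} (hg : Continuous g) (hh : Continuous h) {η : ℝ}
    (hη : ∀ z ∈ K, |g z - h z| ≤ η) : |∫ z, g z ∂μ - ∫ z, h z ∂μ| ≤ η := by
  have hi : ∀ f : ℂ × ℂ → ℝ, Continuous f → Integrable f μ := by
    intro f hf
    obtain ⟨C, hC⟩ := hK.exists_bound_of_continuousOn hf.continuousOn
    refine Integrable.of_bound (C := C) hf.measurable.aestronglyMeasurable ?_
    filter_upwards [hμ] with z hz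
    exact hC z hz
  rw [← integral_sub (hi g hg) (hi h hh), ← Real.norm_eq_abs]
  refine (norm_integral_le_of_norm_le_const (C := η) ?_).trans (by simp)
  filter_upwards [hμ] with z hz
  exact hη z hz

lemma integral_close₂ {g h : (ℂ × ℂ) × (ℂ × ℂ) → ℝ} (hg : Continuous g) (hh : Continuous h)
    {η : ℝ} (hη : ∀ z ∈ K ×ˢ K, |g z - h z| ≤ η) :
    |∫ z, g z ∂(μ.prod μ) - ∫ z, h z ∂(μ.prod μ)| ≤ η := by
  have hμ2 : ∀ᵐ z ∂(μ.prod μ), z ∈ K ×ˢ K := by
    filter_upwards [Measure.quasiMeasurePreserving_fst.ae hμ,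
      Measure.quasiMeasurePreserving_snd.ae hμ] with z h1 h2
    exact ⟨h1, h2⟩
  have hi : ∀ f : (ℂ × ℂ) × (ℂ × ℂ) → ℝ, Continuous f → Integrable f (μ.prod μ) := by
    intro f hf
    obtain ⟨C, hC⟩ := (hK.prod hK).exists_bound_of_continuousOn hf.continuousOn
    refine Integrable.of_bound (C := C) hf.measurable.aestronglyMeasurable ?_
    filter_upwards [hμ2] with z hz
    exact hC z hz
  rw [← integral_sub (hi g hg) (hi h hh), ← Real.norm_eq_abs]
  refine (norm_integral_le_of_norm_le_const (C := η) ?_).trans (by simp)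
  filter_upwards [hμ2] with z hz
  exact hη z hz

variable {x y : ℕ → ℂ × ℂ} (hx : ∀ k, x k ∈ K) (hy : ∀ k, y k ∈ K)

include hx hy

/-- products of continuous functions -/
lemma pair_mul {D : ℕ → C(ℂ × ℂ, ℝ)} (hD : DenseRange D)
    (h : ∀ i j M M' : ℕ, Tendsto (sav fun k => cut (D i) M (x k) * cut (D j) M' (y k)) atTop
      (𝓝 ((∫ z, cut (D i) M z ∂μ) * ∫ z, cut (D j) M' z ∂μ))) (f g : C(ℂ × ℂ, ℝ)) :
    Tendsto (sav fun k => f (x k) * g (y k)) atTop (𝓝 ((∫ z, f z ∂μ) * ∫ z, g z ∂μ)) := by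
  -- bounds
  obtain ⟨M, hMf, hMg⟩ : ∃ M : ℕ, (∀ z ∈ K, |f z| ≤ (M : ℝ)) ∧ ∀ z ∈ K, |g z| ≤ (M : ℝ) := by
    obtain ⟨C, hC⟩ := hK.exists_bound_of_continuousOn f.continuous.continuousOn
    obtain ⟨C', hC'⟩ := hK.exists_bound_of_continuousOn g.continuous.continuousOn
    obtain ⟨M, hM⟩ := exists_nat_ge (max C C')
    exact ⟨M, fun z hz => (hC z hz).trans ((le_max_left _ _).trans hM),
      fun z hz => (hC' z hz).trans ((le_max_right _ _).trans hM)⟩
  have happ : ∀ (q : C(ℂ × ℂ, ℝ)) (η : ℝ), 0 < η → ∃ i : ℕ, ∀ z ∈ K, |D i z - q z| < η := by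
    intro q η hη0
    have hop : IsOpen {h : C(ℂ × ℂ, ℝ) | MapsTo (h - q) K (Metric.ball 0 η)} :=
      (ContinuousMap.isOpen_setOf_mapsTo hK Metric.isOpen_ball).preimage
        (continuous_id.sub continuous_const)
    have hne : ({h : C(ℂ × ℂ, ℝ) | MapsTo (h - q) K (Metric.ball 0 η)}).Nonempty := by
      refine ⟨q, fun z _ => ?_⟩
      simp [hη0]
    obtain ⟨w, hw, i, hi⟩ := hD.inter_open_nonempty _ hop hne
    refine ⟨i, fun z hz => ?_⟩
    have h5 := hw hz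
    rw [← hi] at h5
    simpa using h5
  have hM1 : (0 : ℝ) < (M : ℝ) + 1 := by positivity
  refine tendsto_of_close fun η hη => ?_
  -- `δ` with `(2 M + 2) δ ≤ η`, `δ ≤ 1`
  set δ : ℝ := min 1 (η / (2 * (M : ℝ) + 2)) with hδ
  have hδ0 : 0 < δ := lt_min one_pos (by positivity)
  have hδ1 : δ ≤ 1 := min_le_left _ _
  have hδ2 : (2 * (M : ℝ) + 2) * δ ≤ η := by
    have : δ ≤ η / (2 * (M : ℝ) + 2) := min_le_right _ _
    rw [le_div_iff₀ (by positivity)] at this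
    linarith
  obtain ⟨i, hi⟩ := happ f δ hδ0
  obtain ⟨j, hj⟩ := happ g δ hδ0
  have hbd : ∀ (q : C(ℂ × ℂ, ℝ)) (i : ℕ), (∀ z ∈ K, |q z| ≤ (M : ℝ)) →
      (∀ z ∈ K, |D i z - q z| < δ) → ∀ z ∈ K, |D i z| ≤ (M : ℝ) + 1 := by
    intro q i h1 h2 z hz
    have h7 : |D i z| ≤ |D i z - q z| + |q z| := by
      have := abs_add_le (D i z - q z) (q z)
      simpa using this
    linarith [h1 z hz, h2 z hz]
  have hDi := hbd f i hMf hi
  have hDj := hbd g j hMg hj
  have hci : ∀ z ∈ K, |f z - ((M : ℝ) + 1) * cut (D i) M z| ≤ δ := by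
    intro z hz
    rw [cut_eq (hDi z hz), mul_div_cancel₀ _ hM1.ne', abs_sub_comm]
    exact (hi z hz).le
  have hcj : ∀ z ∈ K, |g z - ((M : ℝ) + 1) * cut (D j) M z| ≤ δ := by
    intro z hz
    rw [cut_eq (hDj z hz), mul_div_cancel₀ _ hM1.ne', abs_sub_comm]
    exact (hj z hz).le
  have mulclose : ∀ a a' b b' : ℝ, |a - a'| ≤ δ → |b - b'| ≤ δ → |a| ≤ (M : ℝ) → |b| ≤ (M : ℝ) →
      |a * b - a' * b'| ≤ η := by
    intro a a' b b' h1 h2 h3 h4
    have e : a * b - a' * b' = a * (b - b') + (a - a') * b + (-((a - a') * (b - b'))) := by ring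
    rw [e]
    refine (abs_add_three _ _ _).trans ?_
    rw [abs_neg, abs_mul, abs_mul, abs_mul]
    have q1 : |a| * |b - b'| ≤ M * δ := mul_le_mul h3 h2 (abs_nonneg _) (by positivity)
    have q2 : |a - a'| * |b| ≤ δ * M := mul_le_mul h1 h4 (abs_nonneg _) hδ0.le
    have q3 : |a - a'| * |b - b'| ≤ δ * 1 := mul_le_mul h1 (h2.trans hδ1) (abs_nonneg _) hδ0.le
    nlinarith
  refine ⟨fun n => (((M : ℝ) + 1) * ((M : ℝ) + 1)) *
      sav (fun k => cut (D i) M (x k) * cut (D j) M (y k)) n,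
    (((M : ℝ) + 1) * ((M : ℝ) + 1)) *
      ((∫ z, cut (D i) M z ∂μ) * ∫ z, cut (D j) M z ∂μ),
    (h i j M M).const_mul _, fun n => ?_, ?_⟩
  · show |sav (fun k => f (x k) * g (y k)) n - (((M : ℝ) + 1) * ((M : ℝ) + 1)) *
      sav (fun k => cut (D i) M (x k) * cut (D j) M (y k)) n| ≤ η
    rw [← sav_smul]
    refine sav_close (fun k => ?_) hη.le n
    have := mulclose (f (x k)) (((M : ℝ) + 1) * cut (D i) M (x k)) (g (y k))
      (((M : ℝ) + 1) * cut (D j) M (y k)) (hci _ (hx k)) (hcj _ (hy k)) (hMf _ (hx k))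
      (hMg _ (hy k))
    have e : ((M : ℝ) + 1) * ((M : ℝ) + 1) * (cut (D i) M (x k) * cut (D j) M (y k)) =
      (((M : ℝ) + 1) * cut (D i) M (x k)) * (((M : ℝ) + 1) * cut (D j) M (y k)) := by ring
    rw [e]
    exact this
  · have hbi : ∀ q : C(ℂ × ℂ, ℝ), (∀ z ∈ K, |q z| ≤ (M : ℝ)) → |∫ z, q z ∂μ| ≤ (M : ℝ) := by
      intro q hq
      rw [← Real.norm_eq_abs]
      refine (norm_integral_le_of_norm_le_const (C := (M : ℝ)) ?_).trans (by simp)
      filter_upwards [hμ] with z hz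
      exact hq z hz
    have h1 := integral_close hK hμ (g := f) (h := fun z => ((M : ℝ) + 1) * cut (D i) M z)
      f.continuous (continuous_const.mul (cut_cont (D i).continuous M)) hci
    have h2 := integral_close hK hμ (g := g) (h := fun z => ((M : ℝ) + 1) * cut (D j) M z)
      g.continuous (continuous_const.mul (cut_cont (D j).continuous M)) hcj
    rw [integral_const_mul] at h1 h2
    have := mulclose _ _ _ _ h1 h2 (hbi f hMf) (hbi g hMg)
    have e : ((M : ℝ) + 1) * ((M : ℝ) + 1) * ((∫ z, cut (D i) M z ∂μ) * ∫ z, cut (D j) M z ∂μ) =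
      (((M : ℝ) + 1) * ∫ z, cut (D i) M z ∂μ) * (((M : ℝ) + 1) * ∫ z, cut (D j) M z ∂μ) := by
      ring
    rw [e]
    exact this

/-- joint equidistribution from products (Stone-Weierstrass) -/
theorem pair_joint (h : ∀ f g : C(ℂ × ℂ, ℝ), Tendsto (sav fun k => f (x k) * g (y k)) atTop
      (𝓝 ((∫ z, f z ∂μ) * ∫ z, g z ∂μ))) {F : (ℂ × ℂ) × (ℂ × ℂ) → ℝ} (hF : Continuous F) :
    Tendsto (sav fun k => F (x k, y k)) atTop (𝓝 (∫ z, F z ∂(μ.prod μ))) := by
  have hKK := hK.prod hK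
  have : CompactSpace ↥(K ×ˢ K) := isCompact_iff_compactSpace.1 hKK
  let s : Submonoid C(↥(K ×ˢ K), ℝ) :=
    { carrier := {q | ∃ f g : C(ℂ × ℂ, ℝ), ∀ z : ↥(K ×ˢ K), q z = f z.1.1 * g z.1.2}
      one_mem' := ⟨1, 1, fun z => by simp⟩
      mul_mem' := by
        rintro a b ⟨f, g, h1⟩ ⟨f', g', h2⟩
        refine ⟨f * f', g * g', fun z => ?_⟩
        rw [ContinuousMap.mul_apply, h1, h2, ContinuousMap.mul_apply, ContinuousMap.mul_apply]
        ring }
  set A : Subalgebra ℝ C(↥(K ×ˢ K), ℝ) := Algebra.adjoin ℝ (s : Set C(↥(K ×ˢ K), ℝ)) with hA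
  have hsep : A.SeparatesPoints := by
    intro z w hzw
    have hne : z.1.1 ≠ w.1.1 ∨ z.1.2 ≠ w.1.2 := by
      by_contra hcon
      push Not at hcon
      exact hzw (Subtype.ext (Prod.ext hcon.1 hcon.2))
    rcases hne with hne | hne
    · refine ⟨_, ⟨⟨fun v : ↥(K ×ˢ K) => dist v.1.1 w.1.1, by fun_prop⟩,
        Algebra.subset_adjoin ⟨⟨fun v => dist v w.1.1, by fun_prop⟩, 1, fun v => by simp⟩,
        rfl⟩, ?_⟩
      simpa using hne
    · refine ⟨_, ⟨⟨fun v : ↥(K ×ˢ K) => dist v.1.2 w.1.2, by fun_prop⟩,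
        Algebra.subset_adjoin ⟨1, ⟨fun v => dist v w.1.2, by fun_prop⟩, fun v => by simp⟩,
        rfl⟩, ?_⟩
      simpa using hne
  have hspan : ∀ q ∈ A, ∃ H : (ℂ × ℂ) × (ℂ × ℂ) → ℝ, Continuous H ∧
      (∀ z : ↥(K ×ˢ K), q z = H z.1) ∧
      Tendsto (sav fun k => H (x k, y k)) atTop (𝓝 (∫ z, H z ∂(μ.prod μ))) := by
    intro q hq
    have hq' : q ∈ Submodule.span ℝ (s : Set C(↥(K ×ˢ K), ℝ)) := by
      have h1 : q ∈ Subalgebra.toSubmodule A := hq
      rw [hA, Algebra.adjoin_eq_span, Submonoid.closure_eq] at h1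
      exact h1
    clear hq
    have hint : ∀ H : (ℂ × ℂ) × (ℂ × ℂ) → ℝ, Continuous H → Integrable H (μ.prod μ) := by
      intro f hf
      have hμ2 : ∀ᵐ z ∂(μ.prod μ), z ∈ K ×ˢ K := by
        filter_upwards [Measure.quasiMeasurePreserving_fst.ae hμ,
          Measure.quasiMeasurePreserving_snd.ae hμ] with z h1 h2
        exact ⟨h1, h2⟩
      obtain ⟨C, hC⟩ := (hK.prod hK).exists_bound_of_continuousOn hf.continuousOn
      refine Integrable.of_bound (C := C) hf.measurable.aestronglyMeasurable ?_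
      filter_upwards [hμ2] with z hz
      exact hC z hz
    induction hq' using Submodule.span_induction with
    | mem q hq =>
      obtain ⟨f, g, hfg⟩ := hq
      refine ⟨fun z => f z.1 * g z.2, by fun_prop, hfg, ?_⟩
      have e := integral_prod_mul (μ := μ) (ν := μ) (f : ℂ × ℂ → ℝ) (g : ℂ × ℂ → ℝ)
      rw [e]
      exact h f g
    | zero =>
      refine ⟨fun _ => 0, continuous_const, fun z => rfl, ?_⟩
      have e0 : (sav fun _ => (0 : ℝ)) = fun _ => 0 := by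
        funext n
        simp [sav]
      rw [e0]
      simp
    | add a b ha hb iha ihb =>
      obtain ⟨H1, c1, d1, e1⟩ := iha
      obtain ⟨H2, c2, d2, e2⟩ := ihb
      refine ⟨fun z => H1 z + H2 z, c1.add c2, fun z => ?_, ?_⟩
      · rw [ContinuousMap.add_apply, d1, d2]
      · rw [integral_add (hint _ c1) (hint _ c2)]
        exact (e1.add e2).congr fun n => (sav_add _ _ n).symm
    | smul c a ha iha =>
      obtain ⟨H1, c1, d1, e1⟩ := iha
      refine ⟨fun z => c * H1 z, continuous_const.mul c1, fun z => ?_, ?_⟩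
      · rw [ContinuousMap.smul_apply, d1, smul_eq_mul]
      · rw [integral_const_mul]
        exact (e1.const_mul c).congr fun n => (sav_smul _ _ n).symm
  refine tendsto_of_close fun η hη => ?_
  obtain ⟨q, hq⟩ := ContinuousMap.exists_mem_subalgebra_near_continuousMap_of_separatesPoints A
    hsep (⟨fun z : ↥(K ×ˢ K) => F z.1, hF.comp continuous_subtype_val⟩) η hη
  obtain ⟨H, c1, d1, e1⟩ := hspan q.1 q.2
  have hclose : ∀ z ∈ K ×ˢ K, |F z - H z| ≤ η := by
    intro z hz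
    have h1 := ContinuousMap.norm_coe_le_norm ((q : C(↥(K ×ˢ K), ℝ)) -
      ⟨fun z : ↥(K ×ˢ K) => F z.1, hF.comp continuous_subtype_val⟩) ⟨z, hz⟩
    rw [ContinuousMap.sub_apply, d1 ⟨z, hz⟩, Real.norm_eq_abs, abs_sub_comm] at h1
    exact h1.trans hq.le
  exact ⟨_, _, e1, fun n => sav_close (fun k => hclose _ ⟨hx k, hy k⟩) hη.le n,
    integral_close₂ hK hμ hF c1 hclose⟩

end det

/-- **(P3)** for almost every point and almost every pair of directions the two orbits are jointly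
equidistributed. -/
theorem front_joint {N : ℕ} (T : PolygonalTable N) (hT : T.IsIrrational)
    {Φ : ℝ → ℂ × ℂ → ℂ × ℂ} (hΦ : T.IsBilliardFlow Φ) {τ : ℝ} (hτ : τ ≠ 0) :
    ∀ᵐ ω ∂((ProbabilityTheory.cond (volume : Measure ℂ) T.Q).prod (nu.prod nu)),
      ∀ F : (ℂ × ℂ) × (ℂ × ℂ) → ℝ, Continuous F →
      Tendsto (fun n : ℕ => (n : ℝ)⁻¹ * ∑ k ∈ Finset.range n,
        F (Φ (k * τ) (ω.1, ω.2.1), Φ (k * τ) (ω.1, ω.2.2))) atTop
        (𝓝 (∫ z, F z ∂(T.mu.prod T.mu))) := by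
  have := isProb_kap T
  have := isProb_mu T
  have := WF.isProb_nu
  obtain ⟨Θ, hΘ, hb, hu⟩ := exists_good_table_flow T
  set D : ℕ → C(ℂ × ℂ, ℝ) := TopologicalSpace.denseSeq C(ℂ × ℂ, ℝ) with hD
  have h1 : ∀ᵐ ω ∂(lam T), ∀ i j M M' : ℕ, Tendsto (sav fun k =>
      cut (D i) M ((Θ τ)^[k] (ω.1, ω.2.1)) * cut (D j) M' ((Θ τ)^[k] (ω.1, ω.2.2))) atTop
      (𝓝 ((∫ z, cut (D i) M z ∂T.mu) * ∫ z, cut (D j) M' z ∂T.mu)) := by
    simp only [ae_all_iff]
    intro i j M M'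
    exact front_pair T hT hΘ hb hτ (cut_cont (D i).continuous M).measurable
      (cut_cont (D j).continuous M').measurable (cut_abs _ _) (cut_abs _ _)
      (continuous_cont T hΘ hb (cut_cont (D i).continuous M) (cut_abs _ _))
      (continuous_cont T hΘ hb (cut_cont (D j).continuous M') (cut_abs _ _))
  have h2 := iterates_ae T hΘ (hu Φ hΦ) τ
  have h3 : ∀ᵐ z ∂T.mu, ∀ k : ℕ, (Θ τ)^[k] z ∈ KK T := by
    rw [ae_all_iff]
    intro k
    exact ((hΘ.mp τ).iterate k).quasiMeasurePreserving.ae (ae_KK T)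
  filter_upwards [h1, (fst_mp T).quasiMeasurePreserving.ae h2,
    (snd_mp T).quasiMeasurePreserving.ae h2, (fst_mp T).quasiMeasurePreserving.ae h3,
    (snd_mp T).quasiMeasurePreserving.ae h3] with ω k1 k2 k3 k4 k5 F hF
  have h4 := pair_joint (isCompact_KK T) (ae_KK T) k4 k5
    (pair_mul (isCompact_KK T) (ae_KK T) k4 k5 (TopologicalSpace.denseRange_denseSeq _) k1) hF
  refine h4.congr fun n => ?_
  unfold sav
  congr 1
  refine Finset.sum_congr rfl fun k _ => ?_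
  rw [k2 k, k3 k]

end Vale.Agent.P099.H717
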