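import Vale.Agent.P099.H184.PT.Maps
import Vale.Agent.P099.R2.H278.Birk

/-! # P099: generic pairs of phase points (Birkhoff for the product of a flow with itself, for
pairs of points whose joint law is absolutely continuous only after short independent time
shifts). -/

set_option linter.all false

namespace Vale.Agent.P099.H717

open MeasureTheory Set Filter Topology Vale.Agent.P099

/-- time average -/
noncomputable def tav {X : Type} (S : X → X) (f : X → ℝ) (n : ℕ) (x : X) : ℝ :=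
  (n : ℝ)⁻¹ * ∑ k ∈ Finset.range n, f (S^[k] x)

lemma tav_eq {X : Type} (S : X → X) (f : X → ℝ) (n : ℕ) (x : X) :
    tav S f n x = birkhoffAverage ℝ S f n x := rfl

/-- Birkhoff's theorem for an ergodic map and a bounded measurable function. -/
theorem birkhoff_ergodic {X : Type} [MeasurableSpace X] {μ : Measure X} [IsProbabilityMeasure μ]
    {S : X → X} (hS : Ergodic S μ) {f : X → ℝ} (hf : Measurable f) {C : ℝ}
    (hC : ∀ x, |f x| ≤ C) :
    ∀ᵐ x ∂μ, Tendsto (fun n => tav S f n x) atTop (𝓝 (∫ z, f z ∂μ)) :=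
  Vale.Agent.P099.R2.H278.birkhoff_ergodic hS hf hC

variable {X : Type} [MeasurableSpace X] [MeasurableEq X] {μ : Measure X} [IsProbabilityMeasure μ]

/-- the averages of `|f(Θ_s z) - f z|` along the orbit of a typical point, for almost all `s` -/
lemma shift_av {Θ : ℝ → X → X} (hΘ : PFlow μ Θ) {τ : ℝ} (h1 : Ergodic (Θ τ) μ)
    {f : X → ℝ} (hf : Measurable f) (hfb : ∀ z, |f z| ≤ 1) :
    ∀ᵐ z ∂μ, ∀ᵐ s ∂(volume : Measure ℝ),
      Tendsto (fun n => tav (Θ τ) (fun z => |f (Θ s z) - f z|) n z) atTop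
        (𝓝 (∫ z, |f (Θ s z) - f z| ∂μ)) := by
  have hS : Measurable (Θ τ) := h1.toMeasurePreserving.measurable
  have hF : Measurable (fun z : ℝ × X => |f (Θ z.1 z.2) - f z.2|) := by
    have ha : Measurable (fun z : ℝ × X => f (Θ z.1 z.2)) := hf.comp hΘ.meas
    have hb : Measurable (fun z : ℝ × X => f z.2) := hf.comp measurable_snd
    exact (ha.sub hb).norm
  rw [← Measure.ae_ae_comm (p := fun (s : ℝ) (z : X) =>
    Tendsto (fun n => tav (Θ τ) (fun z => |f (Θ s z) - f z|) n z) atTop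
        (𝓝 (∫ z, |f (Θ s z) - f z| ∂μ)))]
  · refine ae_of_all _ fun s => ?_
    have hfs : Measurable (fun z => |f (Θ s z) - f z|) :=
      hF.comp (measurable_const.prodMk measurable_id)
    refine birkhoff_ergodic h1 hfs (C := 2) fun z => ?_
    rw [abs_abs]
    refine (abs_sub _ _).trans ?_
    linarith [hfb (Θ s z), hfb z]
  · refine measurableSet_tendsto_fun (f := fun (n : ℕ) (x : ℝ × X) =>
      tav (Θ τ) (fun z => |f (Θ x.1 z) - f z|) n x.2)
      (g := fun x : ℝ × X => ∫ z, |f (Θ x.1 z) - f z| ∂μ) (fun n => ?_) ?_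
    · unfold tav
      refine (Finset.measurable_fun_sum _ fun k _ => ?_).const_mul _
      exact hF.comp (measurable_fst.prodMk ((hS.iterate k).comp measurable_snd))
    · have h3 : StronglyMeasurable (fun s : ℝ => ∫ z, |f (Θ s z) - f z| ∂μ) :=
        StronglyMeasurable.integral_prod_right (f := fun (s : ℝ) (z : X) => |f (Θ s z) - f z|)
          (ν := μ) hF.stronglyMeasurable
      exact h3.measurable.comp measurable_fst

/-- the flow commutes with the iterates of the time-`τ` map -/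
lemma comm_av {Θ : ℝ → X → X} (hΘ : PFlow μ Θ) (τ : ℝ) :
    ∀ᵐ z ∂μ, ∀ᵐ s ∂(volume : Measure ℝ), ∀ k : ℕ, Θ s ((Θ τ)^[k] z) = (Θ τ)^[k] (Θ s z) := by
  have hF : H184Abs.Flow μ Θ := ⟨hΘ.meas, hΘ.mp, hΘ.add, hΘ.zero⟩
  have hS : Measurable (Θ τ) := (hΘ.mp τ).measurable
  rw [← Measure.ae_ae_comm (p := fun (s : ℝ) (z : X) =>
    ∀ k : ℕ, Θ s ((Θ τ)^[k] z) = (Θ τ)^[k] (Θ s z))]
  · refine ae_of_all _ fun s => ?_
    rw [ae_all_iff]
    intro k
    have h1 := H184Abs.iterate_ae hF τ k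
    filter_upwards [h1, (hΘ.mp s).quasiMeasurePreserving.ae h1, hΘ.add s (k * τ),
      hΘ.add (k * τ) s] with z g1 g2 g3 g4
    rw [← g1, ← g2, ← g3, ← g4, add_comm]
  · simp only [setOf_forall]
    refine MeasurableSet.iInter fun k => ?_
    refine measurableSet_eq_fun ?_ ?_
    · exact hΘ.meas.comp (measurable_fst.prodMk ((hS.iterate k).comp measurable_snd))
    · exact (hS.iterate k).comp hΘ.meas

/-- Pairs of points whose joint law becomes absolutely continuous after short time shifts are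
generic for the product of the flow with itself. -/
theorem pair_generic {Θ : ℝ → X → X} (hΘ : PFlow μ Θ) {τ : ℝ} (h1 : Ergodic (Θ τ) μ)
    (h2 : Ergodic (fun z : X × X => (Θ τ z.1, Θ τ z.2)) (μ.prod μ))
    {Y : Type} [MeasurableSpace Y] {m : Measure Y} {x y : Y → X}
    (hxq : ∀ P : X → Prop, (∀ᵐ z ∂μ, P z) → ∀ᵐ ω ∂m, P (x ω))
    (hyq : ∀ P : X → Prop, (∀ᵐ z ∂μ, P z) → ∀ᵐ ω ∂m, P (y ω))
    {d : Y → ℝ} (hd : ∀ᵐ ω ∂m, 0 < d ω)
    (hac : ∀ P : X × X → Prop, MeasurableSet {z | P z} → (∀ᵐ z ∂(μ.prod μ), P z) →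
      ∀ᵐ ω ∂m, ∀ᵐ s ∂(volume : Measure (ℝ × ℝ)),
        s.1 ∈ Ioo 0 (d ω) → s.2 ∈ Ioo 0 (d ω) → P (Θ s.1 (x ω), Θ s.2 (y ω)))
    {f g : X → ℝ} (hf : Measurable f) (hg : Measurable g) (hfb : ∀ z, |f z| ≤ 1)
    (hgb : ∀ z, |g z| ≤ 1)
    (hfc : Tendsto (fun s => ∫ z, |f (Θ s z) - f z| ∂μ) (𝓝[>] 0) (𝓝 0))
    (hgc : Tendsto (fun s => ∫ z, |g (Θ s z) - g z| ∂μ) (𝓝[>] 0) (𝓝 0)) :
    ∀ᵐ ω ∂m, Tendsto (fun n : ℕ => (n : ℝ)⁻¹ * ∑ k ∈ Finset.range n,
      f ((Θ τ)^[k] (x ω)) * g ((Θ τ)^[k] (y ω))) atTop (𝓝 ((∫ z, f z ∂μ) * ∫ z, g z ∂μ)) := by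
  set S : X → X := Θ τ with hSdef
  have hS : Measurable S := h1.toMeasurePreserving.measurable
  set L : ℝ := (∫ z, f z ∂μ) * ∫ z, g z ∂μ with hL
  set A : ℕ → X × X → ℝ := fun n z => (n : ℝ)⁻¹ * ∑ k ∈ Finset.range n,
      f (S^[k] z.1) * g (S^[k] z.2) with hA
  -- generic pairs for the product
  have hgen : ∀ᵐ z ∂(μ.prod μ), Tendsto (fun n => A n z) atTop (𝓝 L) := by
    have hF : Measurable (fun z : X × X => f z.1 * g z.2) :=
      (hf.comp measurable_fst).mul (hg.comp measurable_snd)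
    have h3 := birkhoff_ergodic h2 hF (C := 1) fun z => by
      rw [abs_mul]
      exact mul_le_one₀ (hfb _) (abs_nonneg _) (hgb _)
    rw [integral_prod_mul (μ := μ) (ν := μ) f g] at h3
    filter_upwards [h3] with z hz
    refine hz.congr fun n => ?_
    simp only [tav, hA]
    congr 1
    refine Finset.sum_congr rfl fun k _ => ?_
    have h4 : ∀ k : ℕ, (fun z : X × X => (S z.1, S z.2))^[k] z = (S^[k] z.1, S^[k] z.2) := by
      intro k
      induction k with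
      | zero => rfl
      | succ k ih => rw [Function.iterate_succ_apply', ih, Function.iterate_succ_apply',
          Function.iterate_succ_apply']
    rw [h4]
  have hgm : MeasurableSet {z : X × X | Tendsto (fun n => A n z) atTop (𝓝 L)} := by
    refine measurableSet_tendsto_fun (f := A) (g := fun _ => L) (fun n => ?_) measurable_const
    simp only [hA]
    refine (Finset.measurable_fun_sum _ fun k _ => ?_).const_mul _
    exact (hf.comp ((hS.iterate k).comp measurable_fst)).mul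
      (hg.comp ((hS.iterate k).comp measurable_snd))
  have e1 := hac _ hgm hgen
  have e2 := hxq _ (shift_av hΘ h1 hf hfb)
  have e3 := hyq _ (shift_av hΘ h1 hg hgb)
  have e4 := hxq _ (comm_av hΘ τ)
  have e5 := hyq _ (comm_av hΘ τ)
  filter_upwards [hd, e1, e2, e3, e4, e5] with ω g0 g1 g2 g3 g4 g5
  show Tendsto (fun n => A n (x ω, y ω)) atTop (𝓝 L)
  -- almost all shifts are good
  have q2 := (Measure.quasiMeasurePreserving_fst (μ := (volume : Measure ℝ))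
    (ν := (volume : Measure ℝ))).ae g2
  have q4 := (Measure.quasiMeasurePreserving_fst (μ := (volume : Measure ℝ))
    (ν := (volume : Measure ℝ))).ae g4
  have q3 := (Measure.quasiMeasurePreserving_snd (μ := (volume : Measure ℝ))
    (ν := (volume : Measure ℝ))).ae g3
  have q5 := (Measure.quasiMeasurePreserving_snd (μ := (volume : Measure ℝ))
    (ν := (volume : Measure ℝ))).ae g5
  rw [← Measure.volume_eq_prod] at q2 q3 q4 q5
  rw [Metric.tendsto_atTop]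
  intro ε hε
  -- choose the shifts
  have c1 : ∀ᶠ s in 𝓝[>] (0 : ℝ), ∫ z, |f (Θ s z) - f z| ∂μ < ε / 4 :=
    hfc.eventually (gt_mem_nhds (by positivity))
  have c2 : ∀ᶠ s in 𝓝[>] (0 : ℝ), ∫ z, |g (Θ s z) - g z| ∂μ < ε / 4 :=
    hgc.eventually (gt_mem_nhds (by positivity))
  obtain ⟨r, hr0, hr⟩ := (nhdsGT_basis (0 : ℝ)).eventually_iff.1 (c1.and c2)
  set ρ : ℝ := min r (d ω) with hρ
  have hρ0 : 0 < ρ := lt_min hr0 g0
  have hex : ∃ s : ℝ × ℝ, (s.1 ∈ Ioo 0 ρ ∧ s.2 ∈ Ioo 0 ρ) ∧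
      ((s.1 ∈ Ioo 0 (d ω) → s.2 ∈ Ioo 0 (d ω) →
        Tendsto (fun n => A n (Θ s.1 (x ω), Θ s.2 (y ω))) atTop (𝓝 L)) ∧
      Tendsto (fun n => tav S (fun z => |f (Θ s.1 z) - f z|) n (x ω)) atTop
        (𝓝 (∫ z, |f (Θ s.1 z) - f z| ∂μ)) ∧
      Tendsto (fun n => tav S (fun z => |g (Θ s.2 z) - g z|) n (y ω)) atTop
        (𝓝 (∫ z, |g (Θ s.2 z) - g z| ∂μ)) ∧
      (∀ k : ℕ, Θ s.1 (S^[k] (x ω)) = S^[k] (Θ s.1 (x ω))) ∧
      (∀ k : ℕ, Θ s.2 (S^[k] (y ω)) = S^[k] (Θ s.2 (y ω)))) := by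
    have hall : ∀ᵐ s ∂(volume : Measure (ℝ × ℝ)), ((s.1 ∈ Ioo 0 (d ω) → s.2 ∈ Ioo 0 (d ω) →
        Tendsto (fun n => A n (Θ s.1 (x ω), Θ s.2 (y ω))) atTop (𝓝 L)) ∧
      Tendsto (fun n => tav S (fun z => |f (Θ s.1 z) - f z|) n (x ω)) atTop
        (𝓝 (∫ z, |f (Θ s.1 z) - f z| ∂μ)) ∧
      Tendsto (fun n => tav S (fun z => |g (Θ s.2 z) - g z|) n (y ω)) atTop
        (𝓝 (∫ z, |g (Θ s.2 z) - g z| ∂μ)) ∧
      (∀ k : ℕ, Θ s.1 (S^[k] (x ω)) = S^[k] (Θ s.1 (x ω))) ∧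
      (∀ k : ℕ, Θ s.2 (S^[k] (y ω)) = S^[k] (Θ s.2 (y ω)))) := by
      filter_upwards [g1, q2, q3, q4, q5] with s k1 k2 k3 k4 k5
      exact ⟨k1, k2, k3, k4, k5⟩
    by_contra hno
    have h0 : (volume : Measure (ℝ × ℝ)) (Ioo 0 ρ ×ˢ Ioo 0 ρ) = 0 := by
      refine measure_mono_null ?_ (ae_iff.1 hall)
      intro s hs hs'
      exact hno ⟨s, hs, hs'⟩
    rw [Measure.volume_eq_prod, Measure.prod_prod, Real.volume_Ioo] at h0
    simp only [sub_zero, mul_eq_zero, or_self, ENNReal.ofReal_eq_zero] at h0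
    linarith
  obtain ⟨s, ⟨hs1, hs2⟩, k1, k2, k3, k4, k5⟩ := hex
  have hs1' : s.1 ∈ Ioo 0 (d ω) := ⟨hs1.1, hs1.2.trans_le (min_le_right _ _)⟩
  have hs2' : s.2 ∈ Ioo 0 (d ω) := ⟨hs2.1, hs2.2.trans_le (min_le_right _ _)⟩
  have b1 := (hr ⟨hs1.1, hs1.2.trans_le (min_le_left _ _)⟩).1
  have b2 := (hr ⟨hs2.1, hs2.2.trans_le (min_le_left _ _)⟩).2
  have k1' := k1 hs1' hs2'
  have v1 := k2.eventually (gt_mem_nhds b1)
  have v2 := k3.eventually (gt_mem_nhds b2)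
  have v3 := (Metric.tendsto_atTop.1 k1' (ε / 2) (by positivity))
  obtain ⟨n1, hn1⟩ := eventually_atTop.1 v1
  obtain ⟨n2, hn2⟩ := eventually_atTop.1 v2
  obtain ⟨n3, hn3⟩ := v3
  refine ⟨max n1 (max n2 n3), fun n hn => ?_⟩
  have w1 := hn1 n ((le_max_left _ _).trans hn)
  have w2 := hn2 n (((le_max_left _ _).trans (le_max_right _ _)).trans hn)
  have w3 := hn3 n (((le_max_right _ _).trans (le_max_right _ _)).trans hn)
  have key : |A n (x ω, y ω) - A n (Θ s.1 (x ω), Θ s.2 (y ω))| ≤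
      tav S (fun z => |f (Θ s.1 z) - f z|) n (x ω) +
        tav S (fun z => |g (Θ s.2 z) - g z|) n (y ω) := by
    simp only [hA, tav]
    rw [← mul_sub, ← Finset.sum_sub_distrib, ← mul_add, ← Finset.sum_add_distrib, abs_mul,
      abs_of_nonneg (by positivity : (0 : ℝ) ≤ (n : ℝ)⁻¹)]
    refine mul_le_mul_of_nonneg_left ?_ (by positivity)
    refine (Finset.abs_sum_le_sum_abs _ _).trans (Finset.sum_le_sum fun k _ => ?_)
    rw [k4, k5]
    set a := f (S^[k] (x ω))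
    set a' := f (S^[k] (Θ s.1 (x ω)))
    set b := g (S^[k] (y ω))
    set b' := g (S^[k] (Θ s.2 (y ω)))
    have ha : |a'| ≤ 1 := hfb _
    have hb : |b| ≤ 1 := hgb _
    have h5 : a * b - a' * b' = (a - a') * b + a' * (b - b') := by ring
    rw [h5]
    refine (abs_add_le _ _).trans ?_
    rw [abs_mul, abs_mul, abs_sub_comm a a', abs_sub_comm b b']
    have h6 : |a' - a| * |b| ≤ |a' - a| * 1 := mul_le_mul_of_nonneg_left hb (abs_nonneg _)
    have h7 : |a'| * |b' - b| ≤ 1 * |b' - b| := mul_le_mul_of_nonneg_right ha (abs_nonneg _)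
    linarith
  rw [Real.dist_eq] at w3 ⊢
  calc |A n (x ω, y ω) - L| ≤ |A n (x ω, y ω) - A n (Θ s.1 (x ω), Θ s.2 (y ω))| +
        |A n (Θ s.1 (x ω), Θ s.2 (y ω)) - L| := abs_sub_le _ _ _
    _ < ε := by linarith

end Vale.Agent.P099.H717
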